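import Vale.Agent.P079.Sq.Leaf

/-!
P079: blocks, that is ultrafilters on words whose indices tend to infinity, and their weak means.
-/

namespace Vale.Agent.P079.Sq

open Filter Topology Set

noncomputable section

universe u v w

section Bind

variable {α : Type v} {β : Type w}

lemma eventually_bind {U : Ultrafilter α} {f : α → Ultrafilter β} {p : β → Prop} :
    (∀ᶠ b in (U.bind f : Filter β), p b) ↔ ∀ᶠ a in (U : Filter α), ∀ᶠ b in (f a : Filter β), p b :=
  Iff.rfl

lemma eventually_map' {U : Ultrafilter α} {m : α → β} {p : β → Prop} :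
    (∀ᶠ b in (U.map m : Filter β), p b) ↔ ∀ᶠ a in (U : Filter α), p (m a) :=
  Iff.rfl

/-- The limit along a composed ultrafilter is the limit of the limits. -/
lemma tendsto_bind {Z : Type u} [TopologicalSpace Z] [RegularSpace Z] {U : Ultrafilter α}
    {f : α → Ultrafilter β} {g : β → Z} {a : Z} {b : α → Z}
    (ha : Tendsto g (U.bind f : Filter β) (𝓝 a))
    (hb : ∀ᶠ i in (U : Filter α), Tendsto g (f i : Filter β) (𝓝 (b i))) :
    Tendsto b (U : Filter α) (𝓝 a) := by
  intro s hs
  obtain ⟨t, ht, htc, hts⟩ := exists_mem_nhds_isClosed_subset hs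
  change ∀ᶠ i in (U : Filter α), b i ∈ s
  filter_upwards [eventually_bind.mp (ha ht), hb] with i hi hib
  exact hts (htc.mem_of_tendsto hib hi)

end Bind

/-- The word blocks: nonnegative weights of the given sum, indices tending to infinity and
vanishing errors. -/
structure Blk (w : ℝ) (U : Ultrafilter Word) : Prop where
  word : ∀ᶠ L in (U : Filter Word), Pos L ∧ wt L = w
  rr : Tendsto rr (U : Filter Word) (𝓝 0)
  err : Tendsto err (U : Filter Word) (𝓝 0)

/-- Composition, the first block outside. -/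
def cat (U V : Ultrafilter Word) : Ultrafilter Word := U.bind fun u => V.map (u ++ ·)

/-- A single step of weight `w`. -/
def atom (w : ℝ) : Ultrafilter Word := uf.map fun k => [(k, w)]

/-- The empty block. -/
def emp : Ultrafilter Word := pure []

/-- The composition of the units `us 0, ..., us (n - 1)`, the last one outside. -/
def pile (us : ℕ → Ultrafilter Word) : ℕ → Ultrafilter Word
  | 0 => emp
  | n + 1 => cat (us n) (pile us n)

lemma eventually_cat {U V : Ultrafilter Word} {p : Word → Prop} :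
    (∀ᶠ L in (cat U V : Filter Word), p L) ↔
      ∀ᶠ u in (U : Filter Word), ∀ᶠ v in (V : Filter Word), p (u ++ v) :=
  Iff.rfl

lemma eventually_emp {p : Word → Prop} : (∀ᶠ L in (emp : Filter Word), p L) ↔ p [] :=
  eventually_pure

lemma cat_assoc (U V W : Ultrafilter Word) : cat (cat U V) W = cat U (cat V W) := by
  refine Ultrafilter.ext fun s => ?_
  change (∀ᶠ L in (cat (cat U V) W : Filter Word), L ∈ s) ↔
    ∀ᶠ L in (cat U (cat V W) : Filter Word), L ∈ s
  simp only [eventually_cat, List.append_assoc]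

lemma emp_cat (U : Ultrafilter Word) : cat emp U = U := by
  refine Ultrafilter.ext fun s => ?_
  change (∀ᶠ L in (cat emp U : Filter Word), L ∈ s) ↔ ∀ᶠ L in (U : Filter Word), L ∈ s
  simp only [eventually_cat, eventually_emp, List.nil_append]

lemma cat_emp (U : Ultrafilter Word) : cat U emp = U := by
  refine Ultrafilter.ext fun s => ?_
  change (∀ᶠ L in (cat U emp : Filter Word), L ∈ s) ↔ ∀ᶠ L in (U : Filter Word), L ∈ s
  simp only [eventually_cat, eventually_emp, List.append_nil]

lemma tendsto_zero_iff {α : Type v} {U : Ultrafilter α} {g : α → ℝ} (hg : ∀ L, 0 ≤ g L) :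
    Tendsto g (U : Filter α) (𝓝 0) ↔ ∀ ε > 0, ∀ᶠ L in (U : Filter α), g L < ε := by
  rw [Metric.tendsto_nhds]
  refine forall₂_congr fun ε _ => eventually_congr (Eventually.of_forall fun L => ?_)
  rw [Real.dist_eq, sub_zero, abs_of_nonneg (hg L)]

lemma blk_emp : Blk 0 emp where
  word := eventually_emp.mpr ⟨fun _ h => absurd h List.not_mem_nil, rfl⟩
  rr := (tendsto_zero_iff rr_nonneg).mpr fun _ hε => eventually_emp.mpr hε
  err := (tendsto_zero_iff err_nonneg).mpr fun _ hε => eventually_emp.mpr hε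

lemma blk_atom {w : ℝ} (hw : 0 ≤ w) : Blk w (atom w) where
  word := Eventually.of_forall (f := (uf : Filter ℕ))
    (p := fun k => Pos [(k, w)] ∧ wt [(k, w)] = w) fun k =>
      ⟨pos_cons.mpr ⟨hw, fun _ h => absurd h List.not_mem_nil⟩, by simp⟩
  rr := by
    refine (tendsto_zero_iff rr_nonneg).mpr fun ε hε => eventually_map'.mpr ?_
    filter_upwards [((tendsto_one_div_add_atTop_nhds_zero_nat (𝕜 := ℝ)).mono_left uf_le).eventually
      (eventually_lt_nhds hε)] with k hk
    simp only [Sq.rr, max_lt_iff]; exact ⟨hk, hε⟩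
  err := (tendsto_zero_iff err_nonneg).mpr fun ε hε =>
    eventually_map'.mpr (Eventually.of_forall fun k => by simpa [Sq.err, Sq.rr] using hε)

lemma Blk.cat {a b : ℝ} {U V : Ultrafilter Word} (hU : Blk a U) (hV : Blk b V) :
    Blk (a + b) (Sq.cat U V) where
  word := eventually_cat.mpr <| hU.word.mono fun u hu => hV.word.mono fun v hv =>
    ⟨pos_append.mpr ⟨hu.1, hv.1⟩, by rw [wt_append, hu.2, hv.2]⟩
  rr := (tendsto_zero_iff rr_nonneg).mpr fun ε hε => eventually_cat.mpr <|
    ((tendsto_zero_iff rr_nonneg).mp hU.rr ε hε).mono fun u hu =>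
      ((tendsto_zero_iff rr_nonneg).mp hV.rr ε hε).mono fun v hv => by
        rw [rr_append]; exact max_lt hu hv
  err := (tendsto_zero_iff err_nonneg).mpr fun ε hε => eventually_cat.mpr <|
    ((tendsto_zero_iff err_nonneg).mp hU.err (ε / 3) (by positivity)).mono fun u hu => by
      have hi : (0 : ℝ) < idx u + 1 := by linarith [idx_nonneg u]
      filter_upwards [(tendsto_zero_iff err_nonneg).mp hV.err (ε / 3) (by positivity),
        (tendsto_zero_iff rr_nonneg).mp hV.rr (ε / 3 / (idx u + 1)) (by positivity)] with v hv hv'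
      rw [lt_div_iff₀ hi] at hv'
      nlinarith [err_append u v, rr_nonneg v, idx_nonneg u]

lemma Blk.bind {ι : Type v} {a : ℝ} {l : Ultrafilter ι} {f : ι → Ultrafilter Word}
    (h : ∀ᶠ i in (l : Filter ι), Blk a (f i)) : Blk a (l.bind f) where
  word := eventually_bind.mpr (h.mono fun _ hi => hi.word)
  rr := (tendsto_zero_iff rr_nonneg).mpr fun ε hε => eventually_bind.mpr
    (h.mono fun _ hi => (tendsto_zero_iff rr_nonneg).mp hi.rr ε hε)
  err := (tendsto_zero_iff err_nonneg).mpr fun ε hε => eventually_bind.mpr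
    (h.mono fun _ hi => (tendsto_zero_iff err_nonneg).mp hi.err ε hε)

lemma blk_pile {w : ℝ} {us : ℕ → Ultrafilter Word} :
    ∀ n : ℕ, (∀ i < n, Blk w (us i)) → Blk (n * w) (pile us n)
  | 0, _ => by simpa [pile] using blk_emp
  | n + 1, h => by
    have := (h n (Nat.lt_succ_self n)).cat (blk_pile n fun i hi => h i (Nat.lt_succ_of_lt hi))
    rw [Nat.cast_succ, add_one_mul, add_comm]
    exact this

/-- A setting with weak limits along every ultrafilter on the set. -/
structure Frame (X : Type u) [NormedAddCommGroup X] [NormedSpace ℝ X] extends Asym.Setting X where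
  ulims : ∀ l : Ultrafilter X, K ∈ l → ∃ y ∈ K, ∀ φ : StrongDual ℝ X,
    Tendsto φ (l : Filter X) (𝓝 (φ y))

namespace Frame

variable {X : Type u} [NormedAddCommGroup X] [NormedSpace ℝ X] [CompleteSpace X] (F : Frame X)
  {α : Type v} {β : Type w}

open Classical in
/-- The weak mean. -/
def avg (U : Ultrafilter α) (G : α → X) : X :=
  if h : F.K ∈ U.map G then (F.ulims _ h).choose else F.x0

lemma avg_mem (U : Ultrafilter α) (G : α → X) : F.avg U G ∈ F.K := by
  by_cases h : F.K ∈ U.map G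
  · rw [avg, dif_pos h]; exact (F.ulims _ h).choose_spec.1
  · rw [avg, dif_neg h]; exact F.x0_mem

lemma tendsto_avg {U : Ultrafilter α} {G : α → X} (h : ∀ᶠ a in (U : Filter α), G a ∈ F.K)
    (φ : StrongDual ℝ X) : Tendsto (fun a => φ (G a)) (U : Filter α) (𝓝 (φ (F.avg U G))) := by
  have hK : F.K ∈ U.map G := h
  rw [avg, dif_pos hK]
  exact ((F.ulims _ hK).choose_spec.2 φ).comp tendsto_map

lemma avg_eq {U : Ultrafilter α} {G : α → X} (h : ∀ᶠ a in (U : Filter α), G a ∈ F.K) {y : X}
    (hy : ∀ φ : StrongDual ℝ X, Tendsto (fun a => φ (G a)) (U : Filter α) (𝓝 (φ y))) :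
    F.avg U G = y :=
  SeparatingDual.eq_iff_forall_dual_eq.mpr fun φ =>
    tendsto_nhds_unique (F.tendsto_avg h φ) (hy φ)

lemma avg_bind {U : Ultrafilter α} {f : α → Ultrafilter β} {G : β → X} (h : ∀ b, G b ∈ F.K) :
    F.avg (U.bind f) G = F.avg U fun i => F.avg (f i) G :=
  (F.avg_eq (Eventually.of_forall fun i => F.avg_mem _ _) fun φ =>
    tendsto_bind (F.tendsto_avg (Eventually.of_forall h) φ)
      (Eventually.of_forall fun _ => F.tendsto_avg (Eventually.of_forall h) φ)).symm

lemma avg_map {U : Ultrafilter α} {m : α → β} {G : β → X} (h : ∀ b, G b ∈ F.K) :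
    F.avg (U.map m) G = F.avg U fun a => G (m a) :=
  (F.avg_eq (Eventually.of_forall fun a => h _) fun φ =>
    (F.tendsto_avg (U := U.map m) (Eventually.of_forall h) φ).comp tendsto_map).symm

lemma avg_pure {b : β} {G : β → X} (h : G b ∈ F.K) : F.avg (pure b) G = G b :=
  F.avg_eq (eventually_pure.mpr h) fun φ => tendsto_pure_nhds (fun a => φ (G a)) b

lemma norm_avg_sub_le {U : Ultrafilter α} {G : α → X} (h : ∀ a, G a ∈ F.K) (z : X) {C : ℝ}
    (hC : ∀ ε > 0, ∀ᶠ a in (U : Filter α), ‖G a - z‖ ≤ C + ε) : ‖F.avg U G - z‖ ≤ C := by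
  obtain ⟨φ, hφ1, hφ⟩ := exists_dual_vector'' ℝ (F.avg U G - z)
  simp only [map_sub, RCLike.ofReal_real_eq_id, id] at hφ
  rw [← hφ]
  refine le_of_forall_pos_le_add fun ε hε => le_of_tendsto
    ((F.tendsto_avg (Eventually.of_forall h) φ).sub_const (φ z)) ((hC ε hε).mono fun a ha => ?_)
  rw [← map_sub]
  exact ((le_abs_self _).trans (φ.le_of_opNorm_le hφ1 _)).trans (by rw [one_mul]; exact ha)

lemma norm_avg_sub_avg_le {U : Ultrafilter α} {V : Ultrafilter β} {G : α → X} {G' : β → X}
    (h : ∀ a, G a ∈ F.K) (h' : ∀ b, G' b ∈ F.K) {C : ℝ}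
    (hC : ∀ ε > 0, ∀ᶠ a in (U : Filter α), ∀ᶠ b in (V : Filter β), ‖G a - G' b‖ ≤ C + ε) :
    ‖F.avg U G - F.avg V G'‖ ≤ C := by
  refine F.norm_avg_sub_le h _ fun ε hε => (hC (ε / 2) (by positivity)).mono fun a ha => ?_
  rw [norm_sub_rev]
  refine F.norm_avg_sub_le h' _ fun η hη => ha.mono fun b hb => ?_
  rw [norm_sub_rev]
  linarith

lemma norm_avg_sub_avg_same_le {U : Ultrafilter α} {G G' : α → X} (h : ∀ a, G a ∈ F.K)
    (h' : ∀ a, G' a ∈ F.K) {C : ℝ} (hC : ∀ ε > 0, ∀ᶠ a in (U : Filter α), ‖G a - G' a‖ ≤ C + ε) :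
    ‖F.avg U G - F.avg U G'‖ ≤ C := by
  obtain ⟨φ, hφ1, hφ⟩ := exists_dual_vector'' ℝ (F.avg U G - F.avg U G')
  simp only [map_sub, RCLike.ofReal_real_eq_id, id] at hφ
  rw [← hφ]
  refine le_of_forall_pos_le_add fun ε hε => le_of_tendsto
    ((F.tendsto_avg (Eventually.of_forall h) φ).sub (F.tendsto_avg (Eventually.of_forall h') φ))
    ((hC ε hε).mono fun a ha => ?_)
  rw [← map_sub]
  exact ((le_abs_self _).trans (φ.le_of_opNorm_le hφ1 _)).trans (by rw [one_mul]; exact ha)

/-- The mean of a block. -/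
def mean (R : Ultrafilter Word) : X := F.avg R (leaf F.toSetting)

/-- The mean of a block behind a fixed word. -/
def meanAt (P : Word) (R : Ultrafilter Word) : X := F.avg R fun v => leaf F.toSetting (P ++ v)

lemma meanAt_cat (P : Word) (U V : Ultrafilter Word) :
    F.meanAt P (cat U V) = F.avg U fun u => F.meanAt (P ++ u) V := by
  rw [meanAt, cat, F.avg_bind fun _ => leaf_mem _ _]
  congr 1
  funext u
  rw [F.avg_map fun _ => leaf_mem _ _, meanAt]
  simp only [List.append_assoc]

lemma mean_eq (R : Ultrafilter Word) : F.mean R = F.meanAt [] R := rfl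

lemma meanAt_mem (P : Word) (R : Ultrafilter Word) : F.meanAt P R ∈ F.K := F.avg_mem _ _

end Frame

section Root

variable {X : Type u} [NormedAddCommGroup X] [NormedSpace ℝ X] {α : Type v} {β : Type w}

open Classical in
/-- The weak star limit of functionals. -/
def root (U : Ultrafilter α) (Φ : α → WeakDual ℝ X) : WeakDual ℝ X :=
  if h : ∃ φ ∈ Asym.dualBall X, Tendsto Φ (U : Filter α) (𝓝 φ) then h.choose else 0

lemma exists_root {U : Ultrafilter α} {Φ : α → WeakDual ℝ X} (h : ∀ a, Φ a ∈ Asym.dualBall X) :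
    ∃ φ ∈ Asym.dualBall X, Tendsto Φ (U : Filter α) (𝓝 φ) := by
  have hc : IsCompact (Asym.dualBall X) := by
    convert WeakDual.isCompact_closedBall (𝕜 := ℝ) (0 : StrongDual ℝ X) 1 using 1
    ext φ
    simp [Asym.dualBall, Metric.mem_closedBall, dist_zero_right]
  obtain ⟨φ, hφ, hle⟩ := hc.ultrafilter_le_nhds (U.map Φ)
    (le_principal_iff.mpr (Filter.mem_map.mpr (Filter.univ_mem' h)))
  exact ⟨φ, hφ, hle⟩

lemma root_mem {U : Ultrafilter α} {Φ : α → WeakDual ℝ X} (h : ∀ a, Φ a ∈ Asym.dualBall X) :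
    root U Φ ∈ Asym.dualBall X := by
  rw [root, dif_pos (exists_root h)]; exact (exists_root h).choose_spec.1

lemma tendsto_root {U : Ultrafilter α} {Φ : α → WeakDual ℝ X} (h : ∀ a, Φ a ∈ Asym.dualBall X) :
    Tendsto Φ (U : Filter α) (𝓝 (root U Φ)) := by
  rw [root, dif_pos (exists_root h)]; exact (exists_root h).choose_spec.2

lemma tendsto_root_bind {U : Ultrafilter α} {f : α → Ultrafilter β} {Φ : β → WeakDual ℝ X}
    (h : ∀ b, Φ b ∈ Asym.dualBall X) :
    Tendsto (fun i => root (f i) Φ) (U : Filter α) (𝓝 (root (U.bind f) Φ)) :=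
  tendsto_bind (tendsto_root h) (Eventually.of_forall fun _ => tendsto_root h)

lemma root_map {U : Ultrafilter α} {m : α → β} {Φ : β → WeakDual ℝ X}
    (h : ∀ b, Φ b ∈ Asym.dualBall X) : root (U.map m) Φ = root U fun a => Φ (m a) :=
  tendsto_nhds_unique ((tendsto_root (U := U.map m) h).comp tendsto_map)
    (tendsto_root fun _ => h _)

end Root

end

end Vale.Agent.P079.Sq
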