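import Vale.Agent.P079.Asym.Tree

/-!
P079: weighted words and their leaves. The first letter is the outermost step; the weights are
absolute, so a middle part of weight `b` moves a leaf of total weight one by at most `2 b`.
-/

namespace Vale.Agent.P079.Sq

open Filter Topology Set

noncomputable section

universe u

/-- A word is a list of indices with weights. -/
abbrev Word : Type := List (ℕ × ℝ)

/-- The weight of a word. -/
def wt (L : Word) : ℝ := (L.map Prod.snd).sum

/-- All weights are nonnegative. -/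
def Pos (L : Word) : Prop := ∀ a ∈ L, 0 ≤ a.2

/-- The largest reciprocal of an index. -/
def rr : Word → ℝ
  | [] => 0
  | a :: L => max (1 / (a.1 + 1 : ℝ)) (rr L)

/-- The sum of the indices. -/
def idx (L : Word) : ℝ := (L.map fun a => (a.1 + 1 : ℝ)).sum

/-- The error made by the resolvents. -/
def err : Word → ℝ
  | [] => 0
  | a :: L => (a.1 + 1 : ℝ) * rr L + err L

@[simp] lemma wt_nil : wt [] = 0 := rfl

@[simp] lemma wt_cons (a : ℕ × ℝ) (L : Word) : wt (a :: L) = a.2 + wt L := by simp [wt]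

@[simp] lemma wt_append (L M : Word) : wt (L ++ M) = wt L + wt M := by simp [wt]

@[simp] lemma idx_cons (a : ℕ × ℝ) (L : Word) : idx (a :: L) = (a.1 + 1 : ℝ) + idx L := by simp [idx]

lemma idx_nonneg : ∀ L : Word, 0 ≤ idx L
  | [] => by simp [idx]
  | a :: L => by have := idx_nonneg L; simp only [idx_cons]; positivity

lemma rr_nonneg : ∀ L : Word, 0 ≤ rr L
  | [] => le_rfl
  | _ :: L => le_max_of_le_right (rr_nonneg L)

lemma rr_append : ∀ L M : Word, rr (L ++ M) = max (rr L) (rr M)
  | [], M => (max_eq_right (rr_nonneg M)).symm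
  | a :: L, M => by simp only [List.cons_append, rr, rr_append L M, max_assoc]

lemma err_nonneg : ∀ L : Word, 0 ≤ err L
  | [] => le_rfl
  | a :: L => add_nonneg (mul_nonneg (by positivity) (rr_nonneg L)) (err_nonneg L)

lemma err_append : ∀ L M : Word, err (L ++ M) ≤ err L + err M + idx L * rr M
  | [], M => by simp [err, idx]
  | a :: L, M => by
    have h := err_append L M
    have h1 : max (rr L) (rr M) ≤ rr L + rr M :=
      max_le (le_add_of_nonneg_right (rr_nonneg M)) (le_add_of_nonneg_left (rr_nonneg L))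
    have h2 := mul_le_mul_of_nonneg_left h1 (by positivity : (0 : ℝ) ≤ (a.1 : ℝ) + 1)
    simp only [List.cons_append, err, rr_append, idx_cons]
    linarith

lemma pos_append {L M : Word} : Pos (L ++ M) ↔ Pos L ∧ Pos M := List.forall_mem_append

lemma pos_cons {a : ℕ × ℝ} {L : Word} : Pos (a :: L) ↔ 0 ≤ a.2 ∧ Pos L := List.forall_mem_cons

lemma wt_nonneg : ∀ {L : Word}, Pos L → 0 ≤ wt L
  | [], _ => le_rfl
  | a :: L, h => by
    rw [wt_cons]; exact add_nonneg (pos_cons.mp h).1 (wt_nonneg (pos_cons.mp h).2)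

/-- The share of the outer step. -/
def share (a : ℕ × ℝ) (L : Word) : ℝ := a.2 / (a.2 + wt L)

lemma share_nonneg {a : ℕ × ℝ} {L : Word} (h : Pos (a :: L)) : 0 ≤ share a L :=
  div_nonneg (pos_cons.mp h).1 (add_nonneg (pos_cons.mp h).1 (wt_nonneg (pos_cons.mp h).2))

lemma share_le_one {a : ℕ × ℝ} {L : Word} (h : Pos (a :: L)) : share a L ≤ 1 :=
  div_le_one_of_le₀ (le_add_of_nonneg_right (wt_nonneg (pos_cons.mp h).2))
    (add_nonneg (pos_cons.mp h).1 (wt_nonneg (pos_cons.mp h).2))

variable {X : Type u} [NormedAddCommGroup X] [NormedSpace ℝ X] [CompleteSpace X] (S : Asym.Setting X)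

/-- The leaf of a word. -/
def leaf : Word → X
  | [] => S.x0
  | a :: L => S.res a.1 ((1 - share a L) • leaf L + share a L • S.x0)

lemma leaf_mem : ∀ L : Word, leaf S L ∈ S.K
  | [] => S.x0_mem
  | _ :: _ => S.res_mem _ _

lemma aff_mem {a : ℕ × ℝ} {L : Word} (h : Pos (a :: L)) :
    (1 - share a L) • leaf S L + share a L • S.x0 ∈ S.K :=
  S.conv (leaf_mem S L) S.x0_mem (sub_nonneg.mpr (share_le_one h)) (share_nonneg h) (by ring)

lemma leaf_approx {a : ℕ × ℝ} {L : Word} (h : Pos (a :: L)) :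
    ‖S.T (leaf S (a :: L)) - leaf S (a :: L)‖ ≤ S.D / (a.1 + 1 : ℝ) :=
  S.res_approx _ (aff_mem S h)

lemma leaf_approx_rr {L : Word} (h : Pos L) (hne : L ≠ []) :
    ‖S.T (leaf S L) - leaf S L‖ ≤ S.D * rr L := by
  obtain ⟨a, L, rfl⟩ := List.exists_cons_of_ne_nil hne
  refine (leaf_approx S h).trans ?_
  rw [div_eq_mul_one_div, rr]
  exact mul_le_mul_of_nonneg_left (le_max_left _ _) S.D_nonneg

/-- Two leaves with a common outer part are as close as the share of the inner part allows. -/
lemma leaf_append_le : ∀ {P Q Q' : Word}, Pos (P ++ Q) → Pos (P ++ Q') → wt Q = wt Q' →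
    0 < wt Q → ‖leaf S (P ++ Q) - leaf S (P ++ Q')‖ ≤
      wt Q / (wt P + wt Q) * ‖leaf S Q - leaf S Q'‖
  | [], Q, Q', _, _, _, hq => by simp [hq.ne']
  | a :: P, Q, Q', h, h', hw, hq => by
    change Pos (a :: (P ++ Q)) at h
    change Pos (a :: (P ++ Q')) at h'
    change ‖leaf S (a :: (P ++ Q)) - leaf S (a :: (P ++ Q'))‖ ≤
      wt Q / (wt (a :: P) + wt Q) * ‖leaf S Q - leaf S Q'‖
    have ih := leaf_append_le (pos_cons.mp h).2 (pos_cons.mp h').2 hw hq
    have hP : 0 ≤ wt P := wt_nonneg (pos_append.mp (pos_cons.mp h).2).1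
    have ha := (pos_cons.mp h).1
    have hs : share a (P ++ Q') = share a (P ++ Q) := by simp [share, hw]
    simp only [leaf]
    refine (S.res_lip _ (aff_mem S h) (aff_mem S h')).trans ?_
    rw [hs, add_sub_add_right_eq_sub, ← smul_sub,
      norm_smul_of_nonneg (sub_nonneg.mpr (share_le_one h))]
    refine (mul_le_mul_of_nonneg_left ih (sub_nonneg.mpr (share_le_one h))).trans_eq ?_
    rw [← mul_assoc]
    congr 1
    simp only [share, wt_append, wt_cons]
    have h1 : wt P + wt Q ≠ 0 := (add_pos_of_nonneg_of_pos hP hq).ne'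
    have h2 : a.2 + (wt P + wt Q) ≠ 0 := (add_pos_of_nonneg_of_pos ha (by linarith)).ne'
    rw [show a.2 + wt P + wt Q = a.2 + (wt P + wt Q) by ring]
    field_simp
    ring

/-- An outer part moves a leaf by its share and a small error. -/
lemma leaf_prefix_le : ∀ {P Q : Word}, Pos (P ++ Q) → 0 < wt Q →
    ‖leaf S (P ++ Q) - leaf S Q‖ ≤ S.D * (wt P / (wt P + wt Q) + err (P ++ Q))
  | [], Q, _, _ => by
    simp only [List.nil_append, sub_self, norm_zero, wt_nil, zero_div, zero_add]
    exact mul_nonneg S.D_nonneg (err_nonneg Q)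
  | a :: P, Q, h, hq => by
    change Pos (a :: (P ++ Q)) at h
    change ‖leaf S (a :: (P ++ Q)) - leaf S Q‖ ≤
      S.D * (wt (a :: P) / (wt (a :: P) + wt Q) + err (a :: (P ++ Q)))
    have ih := leaf_prefix_le (pos_cons.mp h).2 hq
    have hQne : Q ≠ [] := by rintro rfl; simp at hq
    have hQ : Pos Q := (pos_append.mp (pos_cons.mp h).2).2
    have hP : 0 ≤ wt P := wt_nonneg (pos_append.mp (pos_cons.mp h).2).1
    have ha := (pos_cons.mp h).1
    set s := share a (P ++ Q) with hs
    have hs0 : 0 ≤ s := share_nonneg h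
    have hs1 : s ≤ 1 := share_le_one h
    set z := leaf S (P ++ Q)
    set v := leaf S Q
    have hz : z ∈ S.K := leaf_mem S _
    have hv : v ∈ S.K := leaf_mem S _
    have h1 : ‖S.res a.1 v - v‖ ≤ S.D * ((a.1 + 1 : ℝ) * rr (P ++ Q)) := by
      refine (S.res_near a.1 hv).trans ((mul_le_mul_of_nonneg_left
        (leaf_approx_rr S hQ hQne) (by positivity)).trans ?_)
      rw [← mul_assoc, mul_comm _ S.D, mul_assoc, rr_append]
      exact mul_le_mul_of_nonneg_left (mul_le_mul_of_nonneg_left (le_max_right _ _)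
        (by positivity)) S.D_nonneg
    have h2 : ‖leaf S (a :: (P ++ Q)) - S.res a.1 v‖ ≤ (1 - s) * ‖z - v‖ + s * S.D := by
      refine (S.res_lip _ (aff_mem S h) hv).trans ?_
      rw [show (1 - s) • z + s • S.x0 - v = (1 - s) • (z - v) + s • (S.x0 - v) by
        simp only [sub_smul, one_smul, smul_sub]; abel]
      refine (norm_add_le _ _).trans ?_
      rw [norm_smul_of_nonneg (sub_nonneg.mpr hs1), norm_smul_of_nonneg hs0]
      exact add_le_add le_rfl (mul_le_mul_of_nonneg_left (S.diam _ S.x0_mem _ hv) hs0)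
    have h3 := mul_le_mul_of_nonneg_left ih (sub_nonneg.mpr hs1)
    have h4 : (1 - s) * (wt P / (wt P + wt Q)) + s = (a.2 + wt P) / (a.2 + wt P + wt Q) := by
      simp only [hs, share, wt_append]
      have h1' : wt P + wt Q ≠ 0 := (add_pos_of_nonneg_of_pos hP hq).ne'
      have h2' : a.2 + (wt P + wt Q) ≠ 0 := (add_pos_of_nonneg_of_pos ha (by linarith)).ne'
      rw [show a.2 + wt P + wt Q = a.2 + (wt P + wt Q) by ring]
      field_simp
      ring
    have h5 : (1 - s) * err (P ++ Q) ≤ err (P ++ Q) :=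
      mul_le_of_le_one_left (err_nonneg _) (by linarith)
    have h6 := norm_sub_le_norm_sub_add_norm_sub (leaf S (a :: (P ++ Q))) (S.res a.1 v) v
    simp only [List.cons_append, wt_cons, err, ← h4]
    have h7 := mul_le_mul_of_nonneg_left h5 S.D_nonneg
    nlinarith [h1, h2, h3, h6, h7]

/-- Changing a middle part of weight `b` moves the leaf by at most twice its share. -/
lemma leaf_middle_le {P C C' Q : Word} (h : Pos (P ++ (C ++ Q))) (h' : Pos (P ++ (C' ++ Q)))
    (hw : wt C = wt C') (hq : 0 < wt Q) :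
    ‖leaf S (P ++ (C ++ Q)) - leaf S (P ++ (C' ++ Q))‖ ≤
      S.D * (2 * (wt C / (wt P + wt C + wt Q)) + (err (C ++ Q) + err (C' ++ Q))) := by
  have hP : 0 ≤ wt P := wt_nonneg (pos_append.mp h).1
  have hC : 0 ≤ wt C := wt_nonneg (pos_append.mp (pos_append.mp h).2).1
  refine (leaf_append_le S h h' (by simp [hw]) (by rw [wt_append]; linarith)).trans ?_
  have h1 := leaf_prefix_le S (pos_append.mp h).2 hq
  have h2 := leaf_prefix_le S (pos_append.mp h').2 hq
  rw [← hw] at h2
  rw [norm_sub_rev] at h2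
  have h3 := (norm_sub_le_norm_sub_add_norm_sub _ (leaf S Q) _).trans (add_le_add h1 h2)
  have hden : 0 < wt P + wt C + wt Q := by linarith
  refine (mul_le_mul_of_nonneg_left h3 (by
    rw [wt_append]; exact div_nonneg (by linarith) (by linarith))).trans ?_
  rw [wt_append, ← add_assoc]
  have hr : (wt C + wt Q) / (wt P + wt C + wt Q) ≤ 1 := (div_le_one hden).mpr (by linarith)
  have he : 0 ≤ err (C ++ Q) + err (C' ++ Q) := add_nonneg (err_nonneg _) (err_nonneg _)
  have he' := mul_le_mul_of_nonneg_left (mul_le_of_le_one_left he hr) S.D_nonneg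
  have hid : (wt C + wt Q) / (wt P + wt C + wt Q) * (wt C / (wt C + wt Q)) =
      wt C / (wt P + wt C + wt Q) := by
    have : wt C + wt Q ≠ 0 := by linarith
    field_simp
  calc _ = S.D * (2 * ((wt C + wt Q) / (wt P + wt C + wt Q) * (wt C / (wt C + wt Q)))) +
        S.D * ((wt C + wt Q) / (wt P + wt C + wt Q) * (err (C ++ Q) + err (C' ++ Q))) := by ring
    _ ≤ _ := by rw [hid, mul_add S.D]; linarith

end

end Vale.Agent.P079.Sq
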