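import Vale.Agent.P079.Asym.Main

/-!
P079: a minimal invariant closed convex set is separable.
-/

namespace Vale.Agent.P079.Sq

open Filter Topology Set

noncomputable section

universe u

variable {X : Type u} [NormedAddCommGroup X] [NormedSpace ℝ X]

/-- The countable sets generated by one point under the map and rational combinations. -/
def grow (T : X → X) (x0 : X) : ℕ → Set X
  | 0 => {x0}
  | n + 1 => grow T x0 n ∪ T '' grow T x0 n ∪
      ⋃ q ∈ {q : ℚ | (0 : ℝ) ≤ q ∧ (q : ℝ) ≤ 1}, ⋃ x ∈ grow T x0 n, ⋃ y ∈ grow T x0 n,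
        {(q : ℝ) • x + (1 - (q : ℝ)) • y}

lemma grow_countable (T : X → X) (x0 : X) : ∀ n, (grow T x0 n).Countable
  | 0 => Set.countable_singleton _
  | n + 1 => by
    have h := grow_countable T x0 n
    refine (h.union (h.image T)).union (Set.Countable.biUnion (Set.to_countable _) fun q _ => ?_)
    exact h.biUnion fun x _ => h.biUnion fun y _ => Set.countable_singleton _

lemma minimal_separable {K : Set X} (hKc : IsClosed K) (hKx : Convex ℝ K) (hne : K.Nonempty)
    {T : X → X} (hT : MapsTo T K K) (hTN : ∀ v ∈ K, ∀ w ∈ K, ‖T v - T w‖ ≤ ‖v - w‖)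
    (hmin : ∀ K', K' ⊆ K → IsClosed K' → Convex ℝ K' → K'.Nonempty → MapsTo T K' K' → K' = K) :
    TopologicalSpace.IsSeparable K := by
  obtain ⟨x0, hx0⟩ := hne
  set Q := ⋃ n, grow T x0 n with hQ
  have hQK : ∀ n, grow T x0 n ⊆ K := by
    intro n
    induction n with
    | zero => exact Set.singleton_subset_iff.mpr hx0
    | succ n ih =>
      refine Set.union_subset (Set.union_subset ih ((Set.image_mono ih).trans hT.image_subset)) ?_
      simp only [Set.iUnion_subset_iff, Set.singleton_subset_iff]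
      exact fun q hq x hx y hy => hKx (ih hx) (ih hy) hq.1 (by linarith [hq.2]) (by ring)
  have hmono : Monotone (grow T x0) :=
    monotone_nat_of_le_succ fun n => Set.subset_union_left.trans Set.subset_union_left
  have hLK : closure Q ⊆ K := closure_minimal (Set.iUnion_subset hQK) hKc
  have hcont : ContinuousOn T K := by
    refine (LipschitzOnWith.of_dist_le_mul (K := 1) fun v hv w hw => ?_).continuousOn
    rw [NNReal.coe_one, one_mul, dist_eq_norm, dist_eq_norm]
    exact hTN v hv w hw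
  have hinv : MapsTo T (closure Q) (closure Q) := by
    refine MapsTo.closure_of_continuousOn ?_ (hcont.mono hLK)
    intro x hx
    obtain ⟨n, hn⟩ := Set.mem_iUnion.mp hx
    exact Set.mem_iUnion.mpr ⟨n + 1, Or.inl (Or.inr ⟨x, hn, rfl⟩)⟩
  have hconv : Convex ℝ (closure Q) := by
    intro x hx y hy a b ha hb hab
    obtain rfl : b = 1 - a := by linarith
    set R : Set ℝ := ((↑) : ℚ → ℝ) '' {q : ℚ | (0 : ℝ) ≤ q ∧ (q : ℝ) ≤ 1}
    have haR : a ∈ closure R := by
      rcases eq_or_lt_of_le (show a ≤ 1 by linarith) with rfl | h1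
      · exact subset_closure ⟨1, by norm_num, by norm_num⟩
      refine Metric.mem_closure_iff.mpr fun ε hε => ?_
      obtain ⟨q, hq1, hq2⟩ := exists_rat_btwn (show a < min 1 (a + ε) from lt_min h1 (by linarith))
      rw [lt_min_iff] at hq2
      refine ⟨q, ⟨q, ⟨by linarith, hq2.1.le⟩, rfl⟩, ?_⟩
      rw [Real.dist_eq, abs_lt]
      constructor <;> linarith [hq2.2]
    have hmem : (a, (x, y)) ∈ closure (R ×ˢ (Q ×ˢ Q)) := by
      rw [closure_prod_eq, closure_prod_eq]; exact ⟨haR, hx, hy⟩
    refine map_mem_closure (f := fun p : ℝ × X × X => p.1 • p.2.1 + (1 - p.1) • p.2.2)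
      (by fun_prop) hmem ?_
    rintro ⟨_, u, v⟩ ⟨⟨q, hq, rfl⟩, hu, hv⟩
    obtain ⟨n, hn⟩ := Set.mem_iUnion.mp hu
    obtain ⟨m, hm⟩ := Set.mem_iUnion.mp hv
    refine Set.mem_iUnion.mpr ⟨max n m + 1, Or.inr ?_⟩
    simp only [Set.mem_iUnion, Set.mem_singleton_iff]
    exact ⟨q, hq, u, hmono (le_max_left _ _) hn, v, hmono (le_max_right _ _) hm, rfl⟩
  have hne' : (closure Q).Nonempty :=
    ⟨x0, subset_closure (Set.mem_iUnion.mpr ⟨0, rfl⟩)⟩
  rw [← hmin _ hLK isClosed_closure hconv hne' hinv]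
  exact (Set.countable_iUnion fun n => grow_countable T x0 n).isSeparable.closure

end

end Vale.Agent.P079.Sq
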