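import Vale.Agent.P079.Asym.Main

/-!
P079: on a minimal invariant set the approximate fixed points are uniformly far from any given
finite family of points, seen by one functional.
-/

namespace Vale.Agent.P079.Sq

open Filter Topology Set Vale.Agent.P079.Asym

noncomputable section

universe u

variable {X : Type u} [NormedAddCommGroup X] [NormedSpace ℝ X]

/-- Goebel–Karlovitz: approximate fixed points are almost diametral. -/
theorem exists_sharp (hrefl : Function.Surjective (NormedSpace.inclusionInDoubleDual ℝ X))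
    {K : Set X} (hKc : IsClosed K) (hKb : Bornology.IsBounded K) (hKx : Convex ℝ K)
    {T : X → X} (hT : MapsTo T K K) (hTN : ∀ v ∈ K, ∀ w ∈ K, ‖T v - T w‖ ≤ ‖v - w‖)
    (hmin : ∀ K', K' ⊆ K → IsClosed K' → Convex ℝ K' → K'.Nonempty → MapsTo T K' K' → K' = K)
    {z : X} (hz : z ∈ K) {d : ℝ} (hd : 0 < d) :
    ∃ ρ : ℝ, 0 < ρ ∧ ∀ v ∈ K, ‖T v - v‖ < ρ → Metric.diam K - d < ‖v - z‖ := by
  by_contra hcon
  simp only [not_exists, not_and, not_forall, not_lt] at hcon
  choose v hvK hvT hvz using fun n : ℕ =>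
    hcon (1 / (n + 1 : ℝ)) (by positivity)
  set D := Metric.diam K with hD
  have hdiam : ∀ x ∈ K, ∀ y ∈ K, ‖x - y‖ ≤ D := fun x hx y hy => by
    rw [← dist_eq_norm]; exact Metric.dist_le_diam_of_mem hKb hx hy
  have hf : ∀ x ∈ K, Tendsto (fun n => ‖v n - x‖) (uf : Filter ℕ) (𝓝 (ulim fun n => ‖v n - x‖)) :=
    fun x hx => tendsto_ulim (R := D) fun n => by rw [abs_norm]; exact hdiam _ (hvK n) x hx
  set f := fun x => ulim fun n => ‖v n - x‖
  have hlip : ∀ x ∈ K, ∀ y ∈ K, f x ≤ f y + ‖x - y‖ := fun x hx y hy =>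
    le_of_tendsto_of_tendsto' (hf x hx) ((hf y hy).add_const _) fun n => by
      have := norm_sub_le_norm_sub_add_norm_sub (v n) y x
      rw [norm_sub_rev x y]
      exact this
  have hfT : ∀ x ∈ K, f (T x) ≤ f x := fun x hx => by
    have h0 := ((tendsto_one_div_add_atTop_nhds_zero_nat (𝕜 := ℝ)).mono_left uf_le).add (hf x hx)
    rw [zero_add] at h0
    refine le_of_tendsto_of_tendsto' (hf _ (hT hx)) h0 fun n => ?_
    have h1 := norm_sub_le_norm_sub_add_norm_sub (v n) (T (v n)) (T x)
    have h2 := hTN _ (hvK n) x hx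
    rw [norm_sub_rev (v n) (T (v n))] at h1
    linarith [hvT n]
  set r := f z
  have hr : r ≤ D - d := le_of_tendsto' (hf z hz) hvz
  have hA : {x | x ∈ K ∧ f x ≤ r} = K := by
    refine hmin _ (fun x hx => hx.1) ?_ ?_ ⟨z, hz, le_rfl⟩
      fun x hx => ⟨hT hx.1, (hfT x hx.1).trans hx.2⟩
    · have hcont : ContinuousOn f K := by
        refine (LipschitzOnWith.of_le_add_mul 1 fun x hx y hy => ?_).continuousOn
        rw [NNReal.coe_one, one_mul, dist_eq_norm]
        exact hlip x hx y hy
      exact hKc.isClosed_le hcont continuousOn_const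
    · intro x hx y hy c e hc he hce
      refine ⟨hKx hx.1 hy.1 hc he hce, ?_⟩
      calc f (c • x + e • y) ≤ c * f x + e * f y := by
            refine le_of_tendsto_of_tendsto' (hf _ (hKx hx.1 hy.1 hc he hce))
              (((hf x hx.1).const_mul c).add ((hf y hy.1).const_mul e)) fun n => ?_
            have e1 : v n - (c • x + e • y) = c • (v n - x) + e • (v n - y) := by
              conv_lhs => rw [← one_smul ℝ (v n), ← hce, add_smul]
              rw [smul_sub, smul_sub]; abel
            rw [e1]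
            exact (norm_add_le _ _).trans
              (by rw [norm_smul_of_nonneg hc, norm_smul_of_nonneg he])
        _ ≤ c * r + e * r := add_le_add (mul_le_mul_of_nonneg_left hx.2 hc)
              (mul_le_mul_of_nonneg_left hy.2 he)
        _ = r := by rw [← add_mul, hce, one_mul]
  -- the weak limit is within the radius of every point
  obtain ⟨y, hy⟩ := Vale.Agent.P079.Asym.exists_weakLimit hrefl (uf.map v) hKb
    (Filter.mem_map.mpr (Filter.univ_mem' hvK))
  have hyK : y ∈ K := weakLimit_mem hy hKc hKx (Filter.mem_map.mpr (Filter.univ_mem' hvK))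
  have hyr : ∀ x ∈ K, ‖y - x‖ ≤ r := fun x hx => by
    obtain ⟨g, hg1, hg⟩ := exists_dual_vector'' ℝ (y - x)
    have hg' : g y - g x = ‖y - x‖ := by rw [← map_sub]; simpa using hg
    rw [← hg']
    refine (le_of_tendsto_of_tendsto' (((hy g).comp Filter.tendsto_map).sub_const (g x))
      (hf x hx) fun n => ?_).trans ((Set.ext_iff.mp hA x).mpr hx).2
    simp only [Function.comp_apply, ← map_sub]
    exact ((le_abs_self _).trans (g.le_of_opNorm_le hg1 _)).trans_eq (one_mul _)
  have hhull : closedConvexHull ℝ (T '' K) = K := by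
    refine hmin _ (closedConvexHull_min (mapsTo_iff_image_subset.mp hT) hKx hKc)
      isClosed_closedConvexHull convex_closedConvexHull
      ⟨T y, subset_closedConvexHull ⟨y, hyK, rfl⟩⟩ fun x hx => subset_closedConvexHull
        ⟨x, closedConvexHull_min (mapsTo_iff_image_subset.mp hT) hKx hKc hx, rfl⟩
  have hW : K ∩ ⋂ x ∈ K, Metric.closedBall x r = K := by
    refine hmin _ Set.inter_subset_left
      (hKc.inter (isClosed_biInter fun x _ => Metric.isClosed_closedBall))
      (hKx.inter (convex_iInter₂ fun x _ => convex_closedBall x r))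
      ⟨y, hyK, Set.mem_iInter₂.mpr fun x hx => by
        rw [Metric.mem_closedBall, dist_eq_norm]; exact hyr x hx⟩ ?_
    intro x hx
    refine ⟨hT hx.1, Set.mem_iInter₂.mpr fun u hu => ?_⟩
    have hsub : K ⊆ Metric.closedBall (T x) r := by
      conv_lhs => rw [← hhull]
      refine closedConvexHull_min ?_ (convex_closedBall _ _) Metric.isClosed_closedBall
      rintro _ ⟨w, hw, rfl⟩
      rw [Metric.mem_closedBall, dist_eq_norm, norm_sub_rev]
      refine (hTN x hx.1 w hw).trans ?_
      simpa [dist_eq_norm] using Set.mem_iInter₂.mp hx.2 w hw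
    rw [Metric.mem_closedBall, dist_comm]
    exact hsub hu
  have hDr : D ≤ r := Metric.diam_le_of_forall_dist_le
    ((norm_nonneg _).trans (hyr y hyK)) fun x hx u hu =>
      Set.mem_iInter₂.mp ((Set.ext_iff.mp hW x).mpr hx).2 u hu
  linarith

/-- One choice of norming functionals serves finitely many points. -/
theorem exists_selection (hrefl : Function.Surjective (NormedSpace.inclusionInDoubleDual ℝ X))
    {K : Set X} (hKc : IsClosed K) (hKb : Bornology.IsBounded K) (hKx : Convex ℝ K)
    {T : X → X} (hT : MapsTo T K K) (hTN : ∀ v ∈ K, ∀ w ∈ K, ‖T v - T w‖ ≤ ‖v - w‖)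
    (hmin : ∀ K', K' ⊆ K → IsClosed K' → Convex ℝ K' → K'.Nonempty → MapsTo T K' K' → K' = K)
    {m : ℕ} {h : Fin (m + 1) → X} (hh : ∀ i, h i ∈ K) {d : ℝ} (hd : 0 < d) :
    ∃ (φ : X → WeakDual ℝ X) (ρ : ℝ), (∀ v, φ v ∈ dualBall X) ∧ 0 < ρ ∧
      ∀ v ∈ K, ‖T v - v‖ < ρ → ∀ i, Metric.diam K - d < φ v (v - h i) := by
  set c : ℝ := 1 / (m + 1 : ℝ) with hc
  have hc0 : 0 < c := by positivity
  set z : X := ∑ i, c • h i
  have hsum : ∑ _i : Fin (m + 1), c = 1 := by
    simp [hc]
    field_simp
  have hz : z ∈ K := hKx.sum_mem (fun i _ => hc0.le) hsum fun i _ => hh i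
  obtain ⟨ρ, hρ, hfar⟩ := exists_sharp hrefl hKc hKb hKx hT hTN hmin hz (mul_pos hc0 hd)
  choose g hg1 hg using fun v : X => exists_dual_vector'' ℝ (v - z)
  refine ⟨fun v => StrongDual.toWeakDual (g v), ρ, fun v => by simpa [dualBall] using hg1 v, hρ,
    fun v hv hvT i => ?_⟩
  change Metric.diam K - d < g v (v - h i)
  by_contra hle
  rw [not_lt] at hle
  have hterm : ∀ k, c * g v (v - h k) ≤ c * Metric.diam K := fun k => by
    refine mul_le_mul_of_nonneg_left ?_ hc0.le
    refine ((le_abs_self _).trans ((g v).le_of_opNorm_le (hg1 v) _)).trans ?_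
    rw [one_mul, ← dist_eq_norm]
    exact Metric.dist_le_diam_of_mem hKb hv (hh k)
  have hvz : v - z = ∑ k, c • (v - h k) := by
    simp only [smul_sub, Finset.sum_sub_distrib, ← Finset.sum_smul, hsum, one_smul, z]
  have hgz : ‖v - z‖ = ∑ k, c * g v (v - h k) := by
    have : g v (v - z) = ‖v - z‖ := by simpa using hg v
    rw [← this, hvz, map_sum]
    simp
  have hlast : (∑ k, c * g v (v - h k)) ≤ Metric.diam K - c * d := by
    have h1 : ∀ k, c * g v (v - h k) ≤ c * Metric.diam K - if k = i then c * d else 0 := fun k => by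
      by_cases hk : k = i
      · subst hk
        rw [if_pos rfl, ← mul_sub]
        exact mul_le_mul_of_nonneg_left hle hc0.le
      · rw [if_neg hk, sub_zero]; exact hterm k
    refine (Finset.sum_le_sum fun k _ => h1 k).trans_eq ?_
    rw [Finset.sum_sub_distrib, ← Finset.sum_mul, hsum, one_mul, Finset.sum_ite_eq',
      if_pos (Finset.mem_univ i)]
  have := hfar v hv hvT
  linarith

end

end Vale.Agent.P079.Sq
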