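import Vale.Agent.P079.Sq.Step
import Vale.Agent.P079.Sq.Sharp
import Vale.Agent.P079.Sq.Separable

/-!
P079: a reflexive space in which the derivation through all natural numbers exhausts the dual
ball in finitely many steps has the fixed point property.
-/

namespace Vale.Agent.P079.Sq

open Filter Topology Set
open Vale.Agent.P079.Asym (dualBall szDer)

noncomputable section

universe u

variable {X : Type u} [NormedAddCommGroup X] [NormedSpace ℝ X] [CompleteSpace X]

/-- States forced through `n` windows. -/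
theorem exists_forced (F : Frame X)
    (hrefl : Function.Surjective (NormedSpace.inclusionInDoubleDual ℝ X))
    (hKb : Bornology.IsBounded F.K) (hKs : TopologicalSpace.IsSeparable F.K) (hD : 0 < F.D)
    {δ : ℝ} (hδ0 : 0 ≤ δ) (hδ : δ < 1 / 2) : ∀ n : ℕ,
    ∃ (b : ℝ) (R : Ultrafilter Word) (H : List X) (θ : ℝ), 0 < b ∧ b < 1 ∧ Blk b R ∧ H ≠ [] ∧
      (∀ h ∈ H, h ∈ F.K) ∧ 0 < θ ∧ Forced F ((omDer δ)^[n] (dualBall X)) b R H θ
  | 0 => ⟨1 / 2, atom (1 / 2), [F.x0], 1, by norm_num, by norm_num, blk_atom (by norm_num),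
      List.cons_ne_nil _ _, fun h hh => by rw [List.mem_singleton.mp hh]; exact F.x0_mem, one_pos,
      fun P _ _ _ Φ hΦ _ => psi_mem hΦ P _⟩
  | n + 1 => by
    obtain ⟨b, R, H, θ, hb0, hb1, hR, -, hH, hθ, hF⟩ := exists_forced F hrefl hKb hKs hD hδ0 hδ n
    obtain ⟨b', R', H', θ', h⟩ := exists_step F hrefl hKb hKs hD hδ0 hδ
      (isClosed_omDer_iterate δ isClosed_dualBall n) (omDer_iterate_subset δ _ n) hb0 hb1 hR hH hθ hF
    refine ⟨b', R', H', θ', ?_⟩
    rw [Function.iterate_succ_apply']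
    exact h

/-- The fixed point property when the derivation through all natural numbers at one radius below
one half exhausts the dual ball. -/
theorem exists_fixedPoint (hrefl : Function.Surjective (NormedSpace.inclusionInDoubleDual ℝ X))
    {δ : ℝ} (hδ : δ < 1 / 2) (hempty : (⋂ n : ℕ, (omDer δ)^[n] (dualBall X)) = ∅)
    {C : Set X} (hc : IsClosed C) (hb : Bornology.IsBounded C) (hx : Convex ℝ C)
    (hne : C.Nonempty) {T : X → X} (hT : MapsTo T C C)
    (hTN : ∀ v ∈ C, ∀ w ∈ C, ‖T v - T w‖ ≤ ‖v - w‖) : ∃ p ∈ C, T p = p := by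
  obtain ⟨n, hn⟩ : ∃ n, (omDer δ)^[n] (dualBall X) = ∅ := by
    by_contra hno
    simp only [not_exists] at hno
    exact (nonempty_iInter_omDer δ fun n => Set.nonempty_iff_ne_empty.mpr (hno n)).ne_empty hempty
  have hδ0 : 0 ≤ δ := by
    by_contra hlt
    have hfix : ∀ A : Set (WeakDual ℝ X), szDer δ A = A := fun A =>
      Set.Subset.antisymm (szDer_subset δ A) fun φ hφ => ⟨hφ, fun U _ hU => ⟨φ, ⟨hU, hφ⟩, φ, ⟨hU, hφ⟩,
        by rw [sub_self, map_zero, norm_zero]; exact not_le.mp hlt⟩⟩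
    have hom : ∀ A : Set (WeakDual ℝ X), omDer δ A = A := fun A => by
      simp only [omDer, Function.iterate_fixed (hfix A), Set.iInter_const]
    rw [Function.iterate_fixed (hom _)] at hn
    exact (hn ▸ (by simp [dualBall] : (0 : WeakDual ℝ X) ∈ dualBall X) :
      (0 : WeakDual ℝ X) ∈ (∅ : Set (WeakDual ℝ X)))
  obtain ⟨K, hKC, hKc, hKx, hKne, hTK, hmin⟩ := Asym.exists_minimal hrefl hc hb hx hne hT
  obtain ⟨x0, hx0⟩ := hKne
  have hKb := hb.subset hKC
  have hTN' : ∀ v ∈ K, ∀ w ∈ K, ‖T v - T w‖ ≤ ‖v - w‖ :=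
    fun v hv w hw => hTN v (hKC hv) w (hKC hw)
  rcases (Metric.diam_nonneg (s := K)).lt_or_eq with hD | hD
  swap
  · refine ⟨x0, hKC hx0, eq_of_sub_eq_zero (norm_le_zero_iff.mp ?_)⟩
    rw [hD, ← dist_eq_norm]
    exact Metric.dist_le_diam_of_mem hKb (hTK hx0) hx0
  exfalso
  have hlim : ∀ l : Ultrafilter X, K ∈ l → ∃ y ∈ K, ∀ φ : StrongDual ℝ X,
      Tendsto φ (l : Filter X) (𝓝 (φ y)) := fun l hl => by
    obtain ⟨y, hy⟩ := Asym.exists_weakLimit hrefl l hKb hl
    exact ⟨y, Asym.weakLimit_mem hy hKc hKx hl, hy⟩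
  let F : Frame X :=
    { K := K, T := T, x0 := x0, D := Metric.diam K, closed := hKc, conv := hKx, maps := hTK
      nonexp := hTN'
      x0_mem := hx0
      diam := fun v hv w hw => by rw [← dist_eq_norm]; exact Metric.dist_le_diam_of_mem hKb hv hw
      weakLimits := fun g hg => by
        obtain ⟨y, hyK, hy⟩ := hlim (uf.map g) (Filter.mem_map.mpr (Filter.univ_mem' hg))
        exact ⟨y, hyK, fun φ => (hy φ).comp Filter.tendsto_map⟩
      ulims := hlim }
  have hKs : TopologicalSpace.IsSeparable F.K :=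
    minimal_separable hKc hKx ⟨x0, hx0⟩ hTK hTN' hmin
  obtain ⟨b, R, H, θ, hb0, hb1, hR, hH0, hH, hθ, hF⟩ :=
    exists_forced F hrefl hKb hKs hD hδ0 hδ n
  obtain ⟨m, hm⟩ : ∃ m, H.length = m + 1 :=
    Nat.exists_eq_succ_of_ne_zero fun h => hH0 (List.length_eq_zero_iff.mp h)
  obtain ⟨φ, ρ, hφ, hρ, hsharp⟩ := exists_selection hrefl hKc hKb hKx hTK hTN' hmin
    (h := fun i : Fin (m + 1) => H.get (i.cast hm.symm)) (fun i => hH _ (H.get_mem _)) hθ
  obtain ⟨k, hk⟩ := exists_nat_gt (F.D / ρ)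
  have hP : Pos [(k, 1 - b)] := pos_cons.mpr ⟨by linarith, fun _ h => absurd h List.not_mem_nil⟩
  have hmem := hF [(k, 1 - b)] hP (by simp) (by simpa [err, rr] using hθ)
    (fun L => φ (leaf F.toSetting L)) (fun L => hφ _) fun h hh => by
      obtain ⟨i, hi⟩ := List.mem_iff_get.mp hh
      filter_upwards [hR.word] with v hv
      have hp : Pos ((k, 1 - b) :: v) := pos_cons.mpr ⟨by linarith, hv.1⟩
      have happrox : ‖T (leaf F.toSetting ((k, 1 - b) :: v)) - leaf F.toSetting ((k, 1 - b) :: v)‖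
          < ρ := by
        refine (leaf_approx F.toSetting hp).trans_lt ?_
        rw [div_lt_iff₀ (by positivity)]
        rw [div_lt_iff₀ hρ] at hk
        linarith
      have := hsharp _ (leaf_mem F.toSetting _) happrox (i.cast hm)
      simpa [← hi] using this
  rw [hn] at hmem
  exact hmem

end

end Vale.Agent.P079.Sq
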