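import Vale.Agent.P079.Asym.Bound

/-!
P079: the gain along chains of equal steps, measured by the Szlenk derivation of a closed set of
functionals, and the derivation through all natural numbers.
-/

namespace Vale.Agent.P079.Sq

open Filter Topology Set Vale.Agent.P079.Asym

noncomputable section

universe u

variable {X : Type u} [NormedAddCommGroup X] [NormedSpace ℝ X]

/-- The derivation through all natural numbers. -/
def omDer (δ : ℝ) (F : Set (WeakDual ℝ X)) : Set (WeakDual ℝ X) := ⋂ j : ℕ, (szDer δ)^[j] F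

lemma szDer_subset (δ : ℝ) (F : Set (WeakDual ℝ X)) : szDer δ F ⊆ F := fun _ h => h.1

lemma isClosed_szDer (δ : ℝ) {F : Set (WeakDual ℝ X)} (hF : IsClosed F) : IsClosed (szDer δ F) := by
  have e : szDer δ F = F ∩ (⋃₀ {U : Set (WeakDual ℝ X) | IsOpen U ∧
      ∀ ψ ∈ U ∩ F, ∀ χ ∈ U ∩ F, ‖WeakDual.toStrongDual (ψ - χ)‖ ≤ δ})ᶜ := by
    ext φ
    simp only [szDer, Set.mem_ofPred_eq, Set.mem_inter_iff, Set.mem_compl_iff, Set.mem_sUnion]
    refine and_congr_right fun _ => ⟨?_, ?_⟩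
    · rintro h ⟨U, ⟨hU, hsmall⟩, hφU⟩
      obtain ⟨ψ, hψ, χ, hχ, hlt⟩ := h U hU hφU
      exact absurd hlt (not_lt.mpr (hsmall ψ hψ χ hχ))
    · intro h U hU hφU
      by_contra hne
      simp only [not_exists, not_and, not_lt] at hne
      exact h ⟨U, ⟨hU, hne⟩, hφU⟩
  rw [e]
  exact hF.inter (isOpen_sUnion fun U hU => hU.1).isClosed_compl

lemma isClosed_szDer_iterate (δ : ℝ) {F : Set (WeakDual ℝ X)} (hF : IsClosed F) :
    ∀ j : ℕ, IsClosed ((szDer δ)^[j] F)
  | 0 => hF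
  | j + 1 => by rw [Function.iterate_succ_apply']; exact isClosed_szDer δ (isClosed_szDer_iterate δ hF j)

lemma szDer_iterate_subset (δ : ℝ) (F : Set (WeakDual ℝ X)) : ∀ j : ℕ, (szDer δ)^[j] F ⊆ F
  | 0 => Subset.rfl
  | j + 1 => by
    rw [Function.iterate_succ_apply']
    exact (szDer_subset δ _).trans (szDer_iterate_subset δ F j)

lemma isClosed_omDer (δ : ℝ) {F : Set (WeakDual ℝ X)} (hF : IsClosed F) : IsClosed (omDer δ F) :=
  isClosed_iInter fun j => isClosed_szDer_iterate δ hF j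

lemma omDer_subset (δ : ℝ) (F : Set (WeakDual ℝ X)) : omDer δ F ⊆ F :=
  (Set.iInter_subset _ 0).trans Subset.rfl

lemma isClosed_omDer_iterate (δ : ℝ) {F : Set (WeakDual ℝ X)} (hF : IsClosed F) :
    ∀ n : ℕ, IsClosed ((omDer δ)^[n] F)
  | 0 => hF
  | n + 1 => by rw [Function.iterate_succ_apply']; exact isClosed_omDer δ (isClosed_omDer_iterate δ hF n)

lemma omDer_iterate_subset (δ : ℝ) (F : Set (WeakDual ℝ X)) : ∀ n : ℕ, (omDer δ)^[n] F ⊆ F
  | 0 => Subset.rfl
  | n + 1 => by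
    rw [Function.iterate_succ_apply']
    exact (omDer_subset δ _).trans (omDer_iterate_subset δ F n)

lemma isCompact_dualBall : IsCompact (dualBall X) := by
  convert WeakDual.isCompact_closedBall (𝕜 := ℝ) (0 : StrongDual ℝ X) 1 using 1
  ext φ
  simp [dualBall, Metric.mem_closedBall, dist_zero_right]

lemma isClosed_dualBall : IsClosed (dualBall X) := isCompact_dualBall.isClosed

/-- If all finite iterates in the dual ball are nonempty, so is their intersection. -/
lemma nonempty_iInter_omDer (δ : ℝ) (h : ∀ n : ℕ, ((omDer δ)^[n] (dualBall X)).Nonempty) :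
    (⋂ n : ℕ, (omDer δ)^[n] (dualBall X)).Nonempty := by
  refine IsCompact.nonempty_iInter_of_sequence_nonempty_isCompact_isClosed _ (fun n => ?_) h
    isCompact_dualBall (fun n => isClosed_omDer_iterate δ isClosed_dualBall n)
  rw [Function.iterate_succ_apply']
  exact omDer_subset δ _

/-- The functionals and gains reached by `i` steps of size `w` over functionals in `F` whose gain
is at most `a`. -/
def Gain (w a : ℝ) (F : Set (WeakDual ℝ X)) : ℕ → WeakDual ℝ X → ℝ → Prop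
  | 0, ψ, c => ψ ∈ F ∧ c ≤ a
  | i + 1, ψ, c => ∃ (ι : Type) (l : Ultrafilter ι) (ψs : ι → WeakDual ℝ X) (cs : ι → ℝ)
      (v : ι → X), (∀ᶠ k in (l : Filter ι), Gain w a F i (ψs k) (cs k) ∧ ‖v k‖ ≤ 2 * w) ∧
      Tendsto ψs (l : Filter ι) (𝓝 ψ) ∧
      (∀ f : StrongDual ℝ X, Tendsto (fun k => f (v k)) (l : Filter ι) (𝓝 0)) ∧
      Tendsto (fun k => cs k + ψs k (v k)) (l : Filter ι) (𝓝 c)

variable {w a : ℝ} {F : Set (WeakDual ℝ X)}

lemma Gain.mem (hF : IsClosed F) : ∀ {i : ℕ} {ψ : WeakDual ℝ X} {c : ℝ}, Gain w a F i ψ c → ψ ∈ F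
  | 0, _, _, h => h.1
  | _ + 1, _, _, ⟨_, _, _, _, _, hev, hlim, _, _⟩ =>
    hF.mem_of_tendsto hlim (hev.mono fun _ hk => Gain.mem hF hk.1)

lemma Gain.le {δ : ℝ} (hδ : 0 ≤ δ) (hw : 0 ≤ w) (hF : IsClosed F) (hFb : F ⊆ dualBall X) :
    ∀ {i : ℕ} {ψ : WeakDual ℝ X} {c : ℝ} {j : ℕ}, Gain w a F i ψ c → ψ ∉ (szDer δ)^[j] F →
      c ≤ a + 2 * w * (δ * i + j)
  | 0, _, _, _, h, _ => h.2.trans (le_add_of_nonneg_right (by positivity))
  | i + 1, ψ, c, j, hg, hj => by
    have hψF := hg.mem hF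
    obtain ⟨ι, l, ψs, cs, v, hev, hlim, hv0, hc⟩ := hg
    -- the least stage which misses the limit functional
    obtain ⟨p, hpj, hp, hp'⟩ : ∃ p, p + 1 ≤ j ∧ ψ ∈ (szDer δ)^[p] F ∧
        ψ ∉ (szDer δ)^[p + 1] F := by
      clear hev hlim hv0 hc
      induction j with
      | zero => exact absurd hψF hj
      | succ j ih =>
        by_cases h : ψ ∈ (szDer δ)^[j] F
        · exact ⟨j, le_rfl, h, hj⟩
        · obtain ⟨p, h1, h2⟩ := ih h
          exact ⟨p, h1.trans j.le_succ, h2⟩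
    set G := (szDer δ)^[p] F
    rw [Function.iterate_succ_apply'] at hp'
    simp only [szDer, Set.mem_ofPred_eq, not_and, not_forall, not_exists, not_lt] at hp'
    obtain ⟨U, hU, hψU, hsmall⟩ := hp' hp
    suffices hmain : c ≤ a + 2 * w * (δ * (i + 1 : ℕ) + (p + 1 : ℕ)) by
      refine hmain.trans ?_
      gcongr
    by_cases hmem : ∀ᶠ k in (l : Filter ι), ψs k ∈ G
    · have hrhs := (hv0 (WeakDual.toStrongDual ψ)).const_add
        (a + 2 * w * (δ * (i + 1 : ℕ) + (p + 1 : ℕ)))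
      rw [add_zero] at hrhs
      refine le_of_tendsto_of_tendsto hc hrhs ?_
      filter_upwards [hev, hmem, hlim (hU.mem_nhds hψU)] with k hk hkG hkU
      have hne : ψs k ∉ (szDer δ)^[p + 1] F := by
        rw [Function.iterate_succ_apply']
        intro h
        obtain ⟨x, hx, y, hy, hxy⟩ := h.2 U hU hkU
        exact absurd hxy (not_lt.mpr (hsmall x hx y hy))
      have h1 := Gain.le hδ hw hF hFb hk.1 hne
      have h2 : (ψs k - ψ) (v k) ≤ δ * (2 * w) :=
        (le_norm_toStrongDual _ _).trans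
          (mul_le_mul (hsmall _ ⟨hkU, hkG⟩ _ ⟨hψU, hp⟩) hk.2 (norm_nonneg _) hδ)
      have h3 : (ψs k - ψ) (v k) = ψs k (v k) - WeakDual.toStrongDual ψ (v k) := rfl
      push_cast at h1 ⊢
      linarith
    · refine le_of_tendsto hc ?_
      filter_upwards [hev, Ultrafilter.eventually_not.mpr hmem] with k hk hkG
      have h1 := Gain.le hδ hw hF hFb hk.1 hkG
      have h2 := ((le_abs_self _).trans (abs_apply_le (hFb (hk.1.mem hF)) (v k))).trans hk.2
      have h3 : 0 ≤ w * δ := mul_nonneg hw hδ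
      push_cast at h1 ⊢
      linarith

/-- Chains of more and more steps over one interval, all gaining more than the small motions allow,
force the limit functional through all natural numbers of derivations. -/
lemma mem_omDer {δ L κ : ℝ} (hδ : 0 ≤ δ) (hL : 0 ≤ L) (hκ : 2 * δ * L < κ) (hF : IsClosed F)
    (hFb : F ⊆ dualBall X) {ψ : WeakDual ℝ X} {ψs : ℕ → WeakDual ℝ X} {cs : ℕ → ℝ}
    (hlim : Tendsto ψs (uf : Filter ℕ) (𝓝 ψ))
    (hgain : ∀ᶠ (m : ℕ) in (uf : Filter ℕ),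
      Gain (L / ((m : ℝ) + 1)) a F (m + 1) (ψs m) (cs m) ∧ a + κ ≤ cs m) :
    ψ ∈ omDer δ F := by
  refine Set.mem_iInter.mpr fun j => (isClosed_szDer_iterate δ hF j).mem_of_tendsto hlim ?_
  by_contra hcon
  have h0 : Tendsto (fun m : ℕ => 2 * δ * L + 2 * L * j * (1 / (m + 1 : ℝ))) (uf : Filter ℕ)
      (𝓝 (2 * δ * L + 2 * L * j * 0)) :=
    ((tendsto_one_div_add_atTop_nhds_zero_nat.mono_left uf_le).const_mul _).const_add _
  rw [mul_zero, add_zero] at h0
  obtain ⟨m, ⟨hg, hcm⟩, hm, hlt⟩ :=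
    (hgain.and ((Ultrafilter.eventually_not.mpr hcon).and
      (h0.eventually (eventually_lt_nhds hκ)))).exists
  have h1 := hg.le hδ (by positivity) hF hFb hm
  have h2 : 2 * (L / ((m : ℝ) + 1)) * (δ * (m + 1 : ℕ) + j) =
      2 * δ * L + 2 * L * j * (1 / (m + 1 : ℝ)) := by
    push_cast
    field_simp
  linarith

end

end Vale.Agent.P079.Sq
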