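import Vale.Agent.P079.Asym.Main

/-!
P079: bounded closed convex separable sets in reflexive spaces have slices of small diameter. The
weak topology is the one of the product of all functionals.
-/

namespace Vale.Agent.P079.Sq

open Filter Topology Set

noncomputable section

universe u

variable {X : Type u} [NormedAddCommGroup X] [NormedSpace ℝ X]

/-- The values of all functionals at a point. -/
def evals : X →ₗ[ℝ] (StrongDual ℝ X → ℝ) where
  toFun x φ := φ x
  map_add' x y := funext fun φ => map_add φ x y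
  map_smul' c x := funext fun φ => map_smul φ c x

lemma evals_injective : Function.Injective (evals (X := X)) := fun _ _ h =>
  SeparatingDual.eq_iff_forall_dual_eq.mpr fun φ => congr_fun h φ

lemma continuous_evals : Continuous (evals (X := X)) :=
  continuous_pi fun φ => φ.continuous

lemma isCompact_evals (hrefl : Function.Surjective (NormedSpace.inclusionInDoubleDual ℝ X))
    {C : Set X} (hcl : IsClosed C) (hcv : Convex ℝ C) (hbd : Bornology.IsBounded C) :
    IsCompact (evals '' C) := by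
  refine isCompact_iff_ultrafilter_le_nhds.mpr fun g hg => ?_
  have hmem : evals '' C ∈ g := le_principal_iff.mp hg
  set l := Ultrafilter.ofComapInfPrincipal hmem
  have hl : C ∈ l := Ultrafilter.ofComapInfPrincipal_mem hmem
  obtain ⟨y, hy⟩ := Asym.exists_weakLimit hrefl l hbd hl
  refine ⟨evals y, ⟨y, Asym.weakLimit_mem hy hcl hcv hl, rfl⟩, ?_⟩
  rw [← Ultrafilter.ofComapInfPrincipal_eq_of_map hmem, Ultrafilter.coe_map]
  exact tendsto_pi_nhds.mpr fun φ => hy φ

/-- Small slices. -/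
theorem exists_slice [CompleteSpace X]
    (hrefl : Function.Surjective (NormedSpace.inclusionInDoubleDual ℝ X)) {C : Set X}
    (hne : C.Nonempty) (hcl : IsClosed C) (hcv : Convex ℝ C) (hbd : Bornology.IsBounded C)
    (hsep : TopologicalSpace.IsSeparable C) {η : ℝ} (hη : 0 < η) :
    ∃ (f : StrongDual ℝ X) (c : ℝ), (∃ x ∈ C, c < f x) ∧
      ∀ x ∈ C, ∀ y ∈ C, c < f x → c < f y → ‖x - y‖ ≤ η := by
  obtain ⟨B, hB⟩ := hbd.exists_norm_le
  have hCc := isCompact_evals hrefl hcl hcv hbd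
  -- a minimal compact set with the support function of the set
  set 𝒮 : Set (Set (StrongDual ℝ X → ℝ)) :=
    {G | G ⊆ evals '' C ∧ IsCompact G ∧ ∀ φ : StrongDual ℝ X, ∀ x ∈ C, ∃ g ∈ G, φ x ≤ g φ}
  obtain ⟨G, -, hmin⟩ := zorn_superset_nonempty 𝒮 (fun c hc hchain hcne => by
    have : Nonempty c := hcne.to_subtype
    refine ⟨⋂₀ c, ⟨?_, ?_, fun φ x hx => ?_⟩, fun s hs => Set.sInter_subset_of_mem hs⟩
    · obtain ⟨s, hs⟩ := hcne
      exact (Set.sInter_subset_of_mem hs).trans (hc hs).1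
    · obtain ⟨s, hs⟩ := hcne
      exact (hc hs).2.1.of_isClosed_subset (isClosed_sInter fun t ht => (hc ht).2.1.isClosed)
        (Set.sInter_subset_of_mem hs)
    · have hcl' : IsClosed {g : StrongDual ℝ X → ℝ | φ x ≤ g φ} :=
        isClosed_le continuous_const (continuous_apply φ)
      obtain ⟨g, hg⟩ := IsCompact.nonempty_iInter_of_directed_nonempty_isCompact_isClosed
        (fun s : c => (s : Set (StrongDual ℝ X → ℝ)) ∩ {g | φ x ≤ g φ})
        (fun s t => by
          rcases hchain.total s.2 t.2 with h | h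
          · exact ⟨s, subset_rfl, Set.inter_subset_inter_left _ h⟩
          · exact ⟨t, Set.inter_subset_inter_left _ h, subset_rfl⟩)
        (fun s => (hc s.2).2.2 φ x hx)
        (fun s => (hc s.2).2.1.inter_right hcl') (fun s => (hc s.2).2.1.isClosed.inter hcl')
      rw [Set.mem_iInter] at hg
      exact ⟨g, Set.mem_sInter.mpr fun s hs => (hg ⟨s, hs⟩).1, (hg (Classical.arbitrary c)).2⟩)
    (evals '' C) ⟨subset_rfl, hCc, fun φ x hx => ⟨evals x, ⟨x, hx, rfl⟩, le_rfl⟩⟩
  obtain ⟨hGC, hGc, hGsup⟩ := hmin.prop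
  -- a relatively open piece inside a small ball
  obtain ⟨D, hDc, hCD⟩ := hsep
  set ρ := η / 4 with hρdef
  have hρ : 0 < ρ := by positivity
  set piece : D → Set (StrongDual ℝ X → ℝ) :=
    fun d => evals '' (C ∩ Metric.closedBall (d : X) ρ)
  have hpiece : ∀ d, IsCompact (piece d) := fun d => isCompact_evals hrefl
    (hcl.inter Metric.isClosed_closedBall) (hcv.inter (convex_closedBall _ _))
    (hbd.subset Set.inter_subset_left)
  obtain ⟨x1, hx1⟩ := hne
  have hGne : G.Nonempty := by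
    obtain ⟨g, hg, -⟩ := hGsup 0 x1 hx1; exact ⟨g, hg⟩
  have := hGne.to_subtype
  have := isCompact_iff_compactSpace.mp hGc
  have := hDc.to_subtype
  obtain ⟨d, hd⟩ := nonempty_interior_of_iUnion_of_closed
    (f := fun d : D => ((↑) : G → StrongDual ℝ X → ℝ) ⁻¹' piece d)
    (fun d => (hpiece d).isClosed.preimage continuous_subtype_val) (by
      refine Set.eq_univ_of_forall fun g => ?_
      obtain ⟨x, hx, hxg⟩ := hGC g.2
      obtain ⟨d, hdD, hd⟩ := Metric.mem_closure_iff.mp (hCD hx) ρ hρ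
      exact Set.mem_iUnion.mpr ⟨⟨d, hdD⟩, x, ⟨hx, Metric.mem_closedBall.mpr hd.le⟩, hxg⟩)
  obtain ⟨V, hV, hVe⟩ := isOpen_induced_iff.mp (isOpen_interior
    (s := ((↑) : G → StrongDual ℝ X → ℝ) ⁻¹' piece d))
  obtain ⟨g0, hg0⟩ := hd
  have hg0V : (g0 : StrongDual ℝ X → ℝ) ∈ V := (Set.ext_iff.mp hVe g0).mpr hg0
  have hVsub : ∀ g ∈ G, g ∈ V → g ∈ piece d := fun g hg hgV =>
    interior_subset (s := ((↑) : G → StrongDual ℝ X → ℝ) ⁻¹' piece d)
      ((Set.ext_iff.mp hVe ⟨g, hg⟩).mp hgV)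
  obtain ⟨-, q0, hq0, -⟩ : ∃ g, ∃ q ∈ C ∩ Metric.closedBall (d : X) ρ, evals q = g :=
    ⟨g0, hVsub _ g0.2 hg0V⟩
  set G1 := G \ V
  have hG1c : IsCompact G1 := hGc.diff hV
  -- the functional which does not see the rest
  obtain ⟨f, x0, hx0, hf⟩ : ∃ f : StrongDual ℝ X, ∃ x ∈ C, ∀ g ∈ G1, g f < f x := by
    by_contra hno
    push Not at hno
    have h : G ⊆ G1 := hmin.le_of_le ⟨Set.sdiff_subset.trans hGC, hG1c, hno⟩ Set.sdiff_subset
    exact (h g0.2).2 hg0V
  rcases G1.eq_empty_or_nonempty with hempty | hG1ne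
  · -- the whole set is inside the ball
    have hsub : ∀ x ∈ C, x ∈ Metric.closedBall (d : X) ρ := by
      intro x hx
      by_contra hxb
      obtain ⟨φ, s, hφs, hsx⟩ :=
        geometric_hahn_banach_closed_point (convex_closedBall _ _) Metric.isClosed_closedBall hxb
      obtain ⟨g, hg, hge⟩ := hGsup φ x hx
      have hgV : g ∈ V := by
        by_contra h
        exact (Set.eq_empty_iff_forall_notMem.mp hempty) g ⟨hg, h⟩
      obtain ⟨p, ⟨-, hp⟩, rfl⟩ := hVsub g hg hgV
      exact absurd (lt_of_lt_of_le hsx hge) (not_lt.mpr (hφs p hp).le)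
    refine ⟨0, -1, ⟨x1, hx1, by simp⟩, fun x hx y hy _ _ => ?_⟩
    have h1 := Metric.mem_closedBall.mp (hsub x hx)
    have h2 := Metric.mem_closedBall.mp (hsub y hy)
    rw [← dist_eq_norm]
    linarith [dist_triangle_right x y (d : X)]
  obtain ⟨g1, hg1, hg1max⟩ := hG1c.exists_isMaxOn hG1ne (continuous_apply f).continuousOn
  set m1 := g1 f
  have hm1 : m1 < f x0 := hf g1 hg1
  set M := sSup (f '' C)
  have hbdd : BddAbove (f '' C) := by
    refine ⟨‖f‖ * B, ?_⟩
    rintro _ ⟨x, hx, rfl⟩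
    exact (le_abs_self _).trans ((f.le_opNorm x).trans
      (mul_le_mul_of_nonneg_left (hB x hx) (norm_nonneg f)))
  have hM : ∀ x ∈ C, f x ≤ M := fun x hx => le_csSup hbdd ⟨x, hx, rfl⟩
  have hMm : m1 < M := hm1.trans_le (hM x0 hx0)
  -- the two convex pieces
  set P := C ∩ {x | f x ≤ m1}
  set Q := C ∩ Metric.closedBall (d : X) ρ
  have hPc : IsCompact (evals '' P) := isCompact_evals hrefl
    (hcl.inter (isClosed_le f.continuous continuous_const))
    (hcv.inter (convex_halfSpace_le f.toLinearMap.isLinear m1))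
    (hbd.subset Set.inter_subset_left)
  set J := convexJoin ℝ (evals '' P) (evals '' Q)
  have hJc : IsClosed J := by
    have e : J = (fun t : ℝ × (StrongDual ℝ X → ℝ) × (StrongDual ℝ X → ℝ) =>
        (1 - t.1) • t.2.1 + t.1 • t.2.2) '' (Set.Icc (0 : ℝ) 1 ×ˢ ((evals '' P) ×ˢ (evals '' Q))) := by
      ext z
      simp only [J, mem_convexJoin, segment_eq_image, Set.mem_image, Prod.exists, Set.mem_prod]
      constructor
      · rintro ⟨p, hp, q, hq, t, ht, rfl⟩
        exact ⟨t, p, q, ⟨ht, hp, hq⟩, rfl⟩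
      · rintro ⟨t, p, q, ⟨ht, hp, hq⟩, rfl⟩
        exact ⟨p, hp, q, hq, t, ht, rfl⟩
    rw [e]
    exact ((isCompact_Icc.prod (hPc.prod (hpiece d))).image (by fun_prop)).isClosed
  have hJx : Convex ℝ J :=
    ((hcv.inter (convex_halfSpace_le f.toLinearMap.isLinear m1)).linear_image evals).convexJoin
      ((hcv.inter (convex_closedBall _ _)).linear_image evals)
  obtain ⟨p1, hp1, hp1g⟩ := hGC hg1.1
  have hp1P : p1 ∈ P := ⟨hp1, (congr_fun hp1g f).le⟩
  have hcover : ∀ x ∈ C, evals x ∈ J := by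
    intro x hx
    by_contra hxJ
    obtain ⟨φ, s, hφs, hsx⟩ := geometric_hahn_banach_closed_point
      (hJx.linear_preimage evals) (hJc.preimage continuous_evals) (show x ∉ evals ⁻¹' J from hxJ)
    obtain ⟨g, hg, hge⟩ := hGsup φ x hx
    obtain ⟨p, hp, rfl⟩ := hGC hg
    suffices hpJ : evals p ∈ J from absurd (lt_of_lt_of_le hsx hge) (not_lt.mpr (hφs p hpJ).le)
    by_cases hpV : evals p ∈ V
    · exact subset_convexJoin_right (⟨evals p1, p1, hp1P, rfl⟩ : (evals '' P).Nonempty)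
        (hVsub _ hg hpV)
    · exact subset_convexJoin_left (⟨evals q0, q0, hq0, rfl⟩ : (evals '' Q).Nonempty)
        ⟨p, ⟨hp, isMaxOn_iff.mp hg1max _ ⟨hg, hpV⟩⟩, rfl⟩
  have hB0 : 0 ≤ B := (norm_nonneg _).trans (hB x1 hx1)
  set r : ℝ := η / (8 * (B + 1)) with hrdef
  have hr : 0 < r := by positivity
  refine ⟨f, M - r * (M - m1), ?_, ?_⟩
  · obtain ⟨_, ⟨x, hx, rfl⟩, hlt⟩ := exists_lt_of_lt_csSup (Set.Nonempty.image f ⟨x1, hx1⟩)
      (show M - r * (M - m1) < sSup (f '' C) from sub_lt_self _ (mul_pos hr (sub_pos.mpr hMm)))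
    exact ⟨x, hx, hlt⟩
  have hnear : ∀ x ∈ C, M - r * (M - m1) < f x → ‖x - d‖ ≤ η / 2 := by
    intro x hx hfx
    obtain ⟨_, ⟨p, hp, rfl⟩, _, ⟨q, hq, rfl⟩, hz⟩ := mem_convexJoin.mp (hcover x hx)
    obtain ⟨a, b, ha, hb, hab, hz⟩ := hz
    rw [← map_smul, ← map_smul, ← map_add] at hz
    have hxe := evals_injective hz
    obtain rfl : b = 1 - a := by linarith
    have hfx' : f x = a * f p + (1 - a) * f q := by
      rw [← hxe, map_add, map_smul, map_smul, smul_eq_mul, smul_eq_mul]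
    have h1 := mul_le_mul_of_nonneg_left hp.2 ha
    have h2 := mul_le_mul_of_nonneg_left (hM q hq.1) hb
    have har : a < r := by
      by_contra hcon
      have := mul_le_mul_of_nonneg_right (not_lt.mp hcon) (sub_nonneg.mpr hMm.le)
      linarith
    have hxd : x - (d : X) = a • (p - q) + (q - (d : X)) := by
      rw [← hxe, smul_sub, sub_smul, one_smul]; abel
    rw [hxd]
    refine (norm_add_le _ _).trans ?_
    rw [norm_smul_of_nonneg ha]
    have h3 : ‖p - q‖ ≤ 2 * (B + 1) := (norm_sub_le _ _).trans (by linarith [hB p hp.1, hB q hq.1])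
    have h4 := mul_le_mul har.le h3 (norm_nonneg _) hr.le
    have h5 : ‖q - (d : X)‖ ≤ ρ := by rw [← dist_eq_norm]; exact Metric.mem_closedBall.mp hq.2
    have h6 : r * (2 * (B + 1)) = η / 4 := by rw [hrdef]; field_simp; ring
    linarith
  intro x hx y hy hfx hfy
  have h1 := hnear x hx hfx
  have h2 := hnear y hy hfy
  have h3 := norm_sub_le_norm_sub_add_norm_sub x (d : X) y
  rw [norm_sub_rev (d : X) y] at h3
  linarith

end

end Vale.Agent.P079.Sq
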