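import Vale.Agent.P079.Sq.Window
import Vale.Agent.P079.Sq.Rank

/-!
P079: one window forces the limit functional through all natural numbers of derivations.
-/

namespace Vale.Agent.P079.Sq

open Filter Topology Set
open Vale.Agent.P079.Asym (dualBall)

noncomputable section

universe u

variable {X : Type u} [NormedAddCommGroup X] [NormedSpace ℝ X] [CompleteSpace X] (F : Frame X)

/-- The limit of a bounded quantity along an ultrafilter. -/
def slim (U : Ultrafilter Word) (g : Word → ℝ) : ℝ := limUnder (U : Filter Word) g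

lemma tendsto_slim {U : Ultrafilter Word} {g : Word → ℝ} {C : ℝ} (h : ∀ v, |g v| ≤ C) :
    Tendsto g (U : Filter Word) (𝓝 (slim U g)) := by
  obtain ⟨c, -, hc⟩ := (isCompact_Icc (a := -C) (b := C)).ultrafilter_le_nhds (U.map g)
    (le_principal_iff.mpr (Filter.mem_map.mpr (Filter.univ_mem' fun v => abs_le.mp (h v))))
  exact tendsto_nhds_limUnder ⟨c, hc⟩

lemma cat_bind {ι : Type*} (l : Ultrafilter ι) (f : ι → Ultrafilter Word) (R : Ultrafilter Word) :
    cat (l.bind f) R = l.bind fun i => cat (f i) R :=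
  Ultrafilter.ext fun _ => Iff.rfl

/-- The limit functional behind an outer word. -/
def psi (Φ : Word → WeakDual ℝ X) (P : Word) (R : Ultrafilter Word) : WeakDual ℝ X :=
  root R fun v => Φ (P ++ v)

/-- The limit of the values of the leaf functionals at their leaves. -/
def top (Φ : Word → WeakDual ℝ X) (P : Word) (R : Ultrafilter Word) : ℝ :=
  slim R fun v => Φ (P ++ v) (leaf F.toSetting (P ++ v))

/-- The gain behind an outer word. -/
def gain (Φ : Word → WeakDual ℝ X) (P : Word) (R : Ultrafilter Word) : ℝ :=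
  top F Φ P R - psi Φ P R (F.meanAt P R)

/-- Behind every outer word with almost sharp functionals the limit functional lies in `A`. -/
def Forced (A : Set (WeakDual ℝ X)) (b : ℝ) (R : Ultrafilter Word) (H : List X) (θ : ℝ) : Prop :=
  ∀ P : Word, Pos P → wt P = 1 - b → err P < θ → ∀ Φ : Word → WeakDual ℝ X,
    (∀ L, Φ L ∈ dualBall X) → (∀ h ∈ H, ∀ᶠ v in (R : Filter Word),
      F.D - θ < Φ (P ++ v) (leaf F.toSetting (P ++ v) - h)) → psi Φ P R ∈ A

variable {F}

lemma abs_eval_le {B : ℝ} (hB : ∀ y ∈ F.K, ‖y‖ ≤ B) {Φ : Word → WeakDual ℝ X}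
    (hΦ : ∀ L, Φ L ∈ dualBall X) (L : Word) : |Φ L (leaf F.toSetting L)| ≤ B :=
  (Asym.abs_apply_le (hΦ L) _).trans (hB _ (leaf_mem _ _))

lemma tendsto_top {B : ℝ} (hB : ∀ y ∈ F.K, ‖y‖ ≤ B) {Φ : Word → WeakDual ℝ X}
    (hΦ : ∀ L, Φ L ∈ dualBall X) (P : Word) (R : Ultrafilter Word) :
    Tendsto (fun v => Φ (P ++ v) (leaf F.toSetting (P ++ v))) (R : Filter Word)
      (𝓝 (top F Φ P R)) :=
  tendsto_slim fun v => abs_eval_le hB hΦ (P ++ v)

lemma tendsto_psi {Φ : Word → WeakDual ℝ X} (hΦ : ∀ L, Φ L ∈ dualBall X) (P : Word)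
    (R : Ultrafilter Word) (x : X) :
    Tendsto (fun v => Φ (P ++ v) x) (R : Filter Word) (𝓝 (psi Φ P R x)) :=
  ((WeakDual.eval_continuous x).tendsto _).comp (tendsto_root fun v => hΦ (P ++ v))

lemma tendsto_psi_cat {Φ : Word → WeakDual ℝ X} (hΦ : ∀ L, Φ L ∈ dualBall X) (P : Word)
    (U R : Ultrafilter Word) :
    Tendsto (fun u => psi Φ (P ++ u) R) (U : Filter Word) (𝓝 (psi Φ P (cat U R))) := by
  refine (tendsto_root_bind (U := U) (f := fun u => R.map (u ++ ·))
    (Φ := fun v => Φ (P ++ v)) fun v => hΦ (P ++ v)).congr fun u => ?_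
  rw [root_map fun v => hΦ (P ++ v)]
  simp only [psi, List.append_assoc]

lemma tendsto_top_cat {B : ℝ} (hB : ∀ y ∈ F.K, ‖y‖ ≤ B) {Φ : Word → WeakDual ℝ X}
    (hΦ : ∀ L, Φ L ∈ dualBall X) (P : Word) (U R : Ultrafilter Word) :
    Tendsto (fun u => top F Φ (P ++ u) R) (U : Filter Word) (𝓝 (top F Φ P (cat U R))) :=
  tendsto_bind (tendsto_top hB hΦ P (cat U R)) (Eventually.of_forall fun u => by
    rw [Ultrafilter.coe_map, tendsto_map'_iff]
    simpa only [Function.comp_def, List.append_assoc] using tendsto_top hB hΦ (P ++ u) R)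

lemma psi_mem {Φ : Word → WeakDual ℝ X} (hΦ : ∀ L, Φ L ∈ dualBall X) (P : Word)
    (R : Ultrafilter Word) : psi Φ P R ∈ dualBall X :=
  root_mem fun v => hΦ (P ++ v)

/-- Outer words stay admissible when a block is appended. -/
lemma eventually_outer {P : Word} {c w θ : ℝ} {U : Ultrafilter Word} (hP : Pos P) (hPw : wt P = c)
    (hPe : err P < θ) (hU : Blk w U) :
    ∀ᶠ u in (U : Filter Word), Pos (P ++ u) ∧ wt (P ++ u) = c + w ∧ err (P ++ u) < θ := by
  have hlim : Tendsto (fun u => err u + idx P * rr u) (U : Filter Word) (𝓝 0) := by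
    simpa using hU.err.add (hU.rr.const_mul (idx P))
  filter_upwards [hU.word, hlim.eventually (eventually_lt_nhds (sub_pos.mpr hPe))] with u hu hu'
  refine ⟨pos_append.mpr ⟨hP, hu.1⟩, by rw [wt_append, hPw, hu.2], ?_⟩
  linarith [err_append P u]

variable (F)

/-- One more window above a forced state forces all natural numbers of derivations. -/
theorem exists_step (hrefl : Function.Surjective (NormedSpace.inclusionInDoubleDual ℝ X))
    (hKb : Bornology.IsBounded F.K) (hKs : TopologicalSpace.IsSeparable F.K) (hD : 0 < F.D)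
    {δ : ℝ} (hδ0 : 0 ≤ δ) (hδ : δ < 1 / 2) {A : Set (WeakDual ℝ X)} (hA : IsClosed A)
    (hAb : A ⊆ dualBall X) {b : ℝ} (hb0 : 0 < b) (hb1 : b < 1) {R : Ultrafilter Word}
    (hR : Blk b R) {H : List X} (hH : ∀ h ∈ H, h ∈ F.K) {θ : ℝ} (hθ : 0 < θ)
    (hF : Forced F A b R H θ) :
    ∃ (b' : ℝ) (R' : Ultrafilter Word) (H' : List X) (θ' : ℝ), 0 < b' ∧ b' < 1 ∧ Blk b' R' ∧
      H' ≠ [] ∧ (∀ h ∈ H', h ∈ F.K) ∧ 0 < θ' ∧ Forced F (omDer δ A) b' R' H' θ' := by
  obtain ⟨B, hB⟩ := hKb.exists_norm_le
  set σ : ℝ := 1 - 2 * δ with hσdef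
  have hσ : 0 < σ := by rw [hσdef]; linarith
  obtain ⟨a, w, S, us, hba, hw, hb', hS, hus, hwin⟩ := exists_window F hrefl hKb hKs hb0
    (show b < (1 + b) / 2 by linarith) hR (η := b * F.D * σ / 4) (by positivity)
  have ha0 : 0 < a := lt_of_lt_of_le hb0 hba
  have hSB : Blk a S := hS.blk hR
  set U := uf.bind fun m => pile (us m) (m + 1) with hUdef
  have hcast : ∀ m : ℕ, ((m + 1 : ℕ) : ℝ) * (w / (m + 1 : ℕ)) = w := fun m =>
    mul_div_cancel₀ _ (Nat.cast_ne_zero.mpr m.succ_ne_zero)
  have hpile : ∀ m, Blk w (pile (us m) (m + 1)) := fun m =>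
    hcast m ▸ blk_pile (m + 1) (hus m)
  have hU : Blk w U := Blk.bind (Eventually.of_forall hpile)
  set R' := cat U S
  have hR' : Blk (a + w) R' := by rw [add_comm]; exact hU.cat hSB
  set θ' : ℝ := min θ (F.D * w * σ / (4 * (1 + F.D))) with hθ'
  have hθ'0 : 0 < θ' := lt_min hθ (by positivity)
  refine ⟨a + w, R', F.mean R' :: H, θ', by linarith, by linarith, hR', List.cons_ne_nil _ _,
    fun h hh => ?_, hθ'0, ?_⟩
  · rcases List.mem_cons.mp hh with rfl | hh
    · exact F.avg_mem _ _
    · exact hH h hh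
  intro P hP hPw hPe Φ hΦ hdef
  -- the gain behind the words which reach a chain
  have hbase : ∀ P' : Word, Pos P' → wt P' = 1 - a → err P' < θ →
      (∀ h ∈ H, ∀ᶠ v in (S : Filter Word),
        F.D - θ < Φ (P' ++ v) (leaf F.toSetting (P' ++ v) - h)) →
      psi Φ P' S ∈ A ∧ gain F Φ P' S ≤ F.D * a := by
    intro P' hP' hw' he' hd'
    refine ⟨?_, ?_⟩
    · obtain ⟨V, hV, rfl⟩ := hS
      refine hA.mem_of_tendsto (tendsto_psi_cat hΦ P' V R) ?_
      filter_upwards [eventually_outer hP' hw' he' hV,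
        H.finite_toSet.eventually_all.mpr fun h hh => eventually_cat.mp (hd' h hh)] with u hu hd
      refine hF (P' ++ u) hu.1 (by rw [hu.2.1]; ring) hu.2.2 Φ hΦ fun h hh => ?_
      simpa only [List.append_assoc] using hd h hh
    · have hlim := (tendsto_top hB hΦ P' S).sub (tendsto_psi hΦ P' S (F.meanAt P' S))
      refine le_of_tendsto hlim ?_
      filter_upwards [hSB.word] with v hv
      rw [← map_sub]
      refine ((le_abs_self _).trans (Asym.abs_apply_le (hΦ _) _)).trans ?_
      rw [norm_sub_rev]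
      refine F.norm_avg_sub_le (fun _ => leaf_mem _ _) _ fun ε hε => ?_
      filter_upwards [hSB.word] with v' hv'
      rw [norm_sub_rev]
      refine (leaf_append_le F.toSetting (pos_append.mpr ⟨hP', hv.1⟩)
        (pos_append.mpr ⟨hP', hv'.1⟩) (hv.2.trans hv'.2.symm) (hv.2 ▸ ha0)).trans ?_
      rw [hw', hv.2, sub_add_cancel, div_one, mul_comm]
      have h1 := mul_le_mul_of_nonneg_right
        (F.diam _ (leaf_mem F.toSetting v) _ (leaf_mem F.toSetting v')) ha0.le
      linarith
  have hchain : ∀ (m i : ℕ), i ≤ m + 1 → ∀ P' : Word, Pos P' →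
      wt P' = 1 - (a + i * (w / (m + 1 : ℕ))) → err P' < θ →
      (∀ h ∈ H, ∀ᶠ v in (cat (pile (us m) i) S : Filter Word),
        F.D - θ < Φ (P' ++ v) (leaf F.toSetting (P' ++ v) - h)) →
      Gain (F.D * w * (1 + σ / 4) / ((m : ℝ) + 1)) (F.D * a) A i
        (psi Φ P' (cat (pile (us m) i) S)) (gain F Φ P' (cat (pile (us m) i) S)) := by
    intro m i
    induction i with
    | zero =>
      intro _ P' hP' hw' he' hd'
      rw [pile, emp_cat] at hd' ⊢
      exact hbase P' hP' (by simpa using hw') he' hd'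
    | succ i ih =>
      intro hi P' hP' hw' he' hd'
      set w0 : ℝ := w / (m + 1 : ℕ) with hw0
      have hw00 : 0 < w0 := by positivity
      set Ri := cat (pile (us m) i) S with hRi
      have hRiB : Blk (i * w0 + a) Ri :=
        (blk_pile i fun j hj => hus m j (by omega)).cat hSB
      have hui : Blk w0 (us m i) := hus m i (by omega)
      have e : cat (pile (us m) (i + 1)) S = cat (us m i) Ri := cat_assoc _ _ _
      rw [e] at hd' ⊢
      have hmean : F.meanAt P' (cat (us m i) Ri) =
          F.avg (us m i) fun u => F.meanAt (P' ++ u) Ri := F.meanAt_cat _ _ _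
      refine ⟨Word, us m i, fun u => psi Φ (P' ++ u) Ri, fun u => gain F Φ (P' ++ u) Ri,
        fun u => F.meanAt (P' ++ u) Ri - F.meanAt P' (cat (us m i) Ri), ?_,
        tendsto_psi_cat hΦ P' _ _, fun f => ?_, ?_⟩
      · filter_upwards [eventually_outer hP' hw' he' hui, hui.word,
          hui.err.eventually (eventually_le_nhds (show (0 : ℝ) < σ / 2 * w0 by positivity)),
          H.finite_toSet.eventually_all.mpr fun h hh => eventually_cat.mp (hd' h hh)]
          with u hu hu' hue hd
        refine ⟨ih (by omega) (P' ++ u) hu.1 (by rw [hu.2.1]; push_cast; ring) hu.2.2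
          fun h hh => by simpa only [List.append_assoc] using hd h hh, ?_⟩
        have hbound : ‖F.meanAt (P' ++ u) Ri - F.meanAt P' (cat (us m i) Ri)‖ ≤
            F.D * (2 * w0 + err u) := by
          rw [hmean, norm_sub_rev]
          refine F.norm_avg_sub_le (fun _ => F.meanAt_mem _ _) _ fun ε hε => ?_
          have hε' : (0 : ℝ) < ε / (4 * (F.D + 1)) := by positivity
          filter_upwards [hui.word, hui.err.eventually (eventually_le_nhds hε')] with u' hu'' hue'
          rw [norm_sub_rev]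
          refine (F.norm_avg_sub_avg_same_le (fun _ => leaf_mem _ _) (fun _ => leaf_mem _ _)
            (C := F.D * (2 * w0 + err u + err u')) fun η hη => ?_).trans ?_
          · have hv0 : Tendsto (fun v => F.D * (2 * err v + (idx u + idx u') * rr v))
                (Ri : Filter Word) (𝓝 0) := by
              simpa using ((hRiB.err.const_mul 2).add
                (hRiB.rr.const_mul (idx u + idx u'))).const_mul F.D
            filter_upwards [hRiB.word, hv0.eventually (eventually_le_nhds hη)] with v hv hv'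
            have hp : Pos (P' ++ (u ++ v)) :=
              pos_append.mpr ⟨hP', pos_append.mpr ⟨hu'.1, hv.1⟩⟩
            have hp' : Pos (P' ++ (u' ++ v)) :=
              pos_append.mpr ⟨hP', pos_append.mpr ⟨hu''.1, hv.1⟩⟩
            have hiw : 0 ≤ (i : ℝ) * w0 := by positivity
            rw [List.append_assoc, List.append_assoc]
            refine (leaf_middle_le F.toSetting hp hp' (hu'.2.trans hu''.2.symm)
              (by rw [hv.2]; linarith)).trans ?_
            rw [hw', hu'.2, hv.2]
            have hden : 1 - (a + (i + 1 : ℕ) * w0) + w0 + (i * w0 + a) = 1 := by push_cast; ring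
            rw [hden, div_one]
            have h1 := err_append u v
            have h2 := err_append u' v
            nlinarith [mul_le_mul_of_nonneg_left (add_le_add h1 h2) hD.le]
          · have h3 : F.D * err u' ≤ ε := by
              refine (mul_le_mul_of_nonneg_left hue' hD.le).trans ?_
              rw [mul_div_assoc', div_le_iff₀ (by positivity)]
              nlinarith [hD.le, hε.le]
            nlinarith
        refine hbound.trans ?_
        rw [show (m : ℝ) + 1 = ((m + 1 : ℕ) : ℝ) by push_cast; ring,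
          show F.D * w * (1 + σ / 4) / ((m + 1 : ℕ) : ℝ) = F.D * w0 * (1 + σ / 4) by
            rw [hw0]; ring]
        nlinarith [mul_le_mul_of_nonneg_left hue hD.le]
      · have h := (F.tendsto_avg (U := us m i) (G := fun u => F.meanAt (P' ++ u) Ri)
          (Eventually.of_forall fun _ => F.meanAt_mem _ _) f).sub_const
          (f (F.meanAt P' (cat (us m i) Ri)))
        rw [hmean, sub_self] at h
        simpa only [map_sub, hmean] using h
      · refine ((tendsto_top_cat hB hΦ P' _ _).sub (((WeakDual.eval_continuous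
          (F.meanAt P' (cat (us m i) Ri))).tendsto _).comp
            (tendsto_psi_cat hΦ P' (us m i) Ri))).congr fun u => ?_
        simp only [gain, Function.comp_apply, map_sub]
        ring
  -- the chains of the window gain almost everything
  have hRbind : R' = uf.bind fun m => cat (pile (us m) (m + 1)) S := cat_bind _ _ _
  have hlim : Tendsto (fun m => psi Φ P (cat (pile (us m) (m + 1)) S)) (uf : Filter ℕ)
      (𝓝 (psi Φ P R')) := by
    rw [hRbind]
    exact tendsto_root_bind fun v => hΦ (P ++ v)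
  refine mem_omDer (L := F.D * w * (1 + σ / 4)) (κ := F.D * w * (1 - σ / 2)) (a := F.D * a) hδ0
    (by positivity) ?_ hA hAb hlim (cs := fun m => gain F Φ P (cat (pile (us m) (m + 1)) S)) ?_
  · have : 0 < F.D * w * (σ / 4) * σ := by positivity
    have h2 : 2 * δ = 1 - σ := by rw [hσdef]; ring
    rw [h2]
    nlinarith
  have hdef' : ∀ h ∈ (F.mean R' :: H), ∀ᶠ m in (uf : Filter ℕ),
      ∀ᶠ v in (cat (pile (us m) (m + 1)) S : Filter Word),
        F.D - θ' < Φ (P ++ v) (leaf F.toSetting (P ++ v) - h) := fun h hh => by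
    have := hdef h hh
    rw [hRbind] at this
    exact eventually_bind.mp this
  filter_upwards [(F.mean R' :: H).finite_toSet.eventually_all.mpr hdef', hwin] with m hm hmwin
  set Z := cat (pile (us m) (m + 1)) S with hZ
  have hZB : Blk (w + a) Z := (hpile m).cat hSB
  refine ⟨hchain m (m + 1) le_rfl P hP (by rw [hPw, hcast]) (hPe.trans_le (min_le_left _ _))
    fun h hh => (hm h (List.mem_cons_of_mem _ hh)).mono fun v hv => ?_, ?_⟩
  · linarith [min_le_left θ (F.D * w * σ / (4 * (1 + F.D)))]
  -- the lower bound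
  have hlow : F.D - θ' ≤ top F Φ P Z - psi Φ P Z (F.mean R') :=
    ge_of_tendsto ((tendsto_top hB hΦ P Z).sub (tendsto_psi hΦ P Z _))
      ((hm _ List.mem_cons_self).mono fun v hv => by rw [← map_sub]; exact hv.le)
  have hy1 : ‖F.meanAt P Z - F.mean Z‖ ≤ F.D * (1 - (a + w) + θ') := by
    refine (norm_meanAt_sub_mean_le F hZB (by linarith) hP).trans
      (mul_le_mul_of_nonneg_left (add_le_add ?_ hPe.le) hD.le)
    rw [hPw, show 1 - (a + w) + (w + a) = (1 : ℝ) by ring, div_one]
  have hy2 : ‖F.mean Z - F.mean R'‖ ≤ w * (F.D * σ / 4) := by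
    have e : F.mean Z - F.mean R' =
        (w / (a + w)) • (dr F a w (pile (us m) (m + 1)) S - dr F a w U S) := by
      simp only [dr, hZ, ← smul_sub, sub_sub_sub_cancel_right, smul_smul]
      rw [show w / (a + w) * (w⁻¹ * (a + w)) = 1 by field_simp, one_smul]
    rw [e, norm_smul_of_nonneg (by positivity)]
    refine (mul_le_mul_of_nonneg_left hmwin (by positivity)).trans ?_
    rw [div_mul_eq_mul_div, div_le_iff₀ (by positivity)]
    have : b * (F.D * σ / 4 * w) ≤ (a + w) * (F.D * σ / 4 * w) :=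
      mul_le_mul_of_nonneg_right (by linarith) (by positivity)
    linarith
  have hy : psi Φ P Z (F.meanAt P Z) - psi Φ P Z (F.mean R') ≤
      F.D * (1 - (a + w) + θ') + w * (F.D * σ / 4) := by
    rw [← map_sub]
    exact ((le_abs_self _).trans (Asym.abs_apply_le (psi_mem hΦ P Z) _)).trans
      ((norm_sub_le_norm_sub_add_norm_sub _ _ _).trans (add_le_add hy1 hy2))
  have hθ'' : θ' * (4 * (1 + F.D)) ≤ F.D * w * σ :=
    (le_div_iff₀ (by positivity)).mp (min_le_right _ _)
  simp only [gain]
  nlinarith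

end

end Vale.Agent.P079.Sq
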