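import Vale.Agent.P079.Sq.Block
import Vale.Agent.P079.Sq.Slice
import Vale.Agent.P079.Asym.Main

/-!
P079: windows. In every time interval, at a state built inside it, some selection over long chains
of equal units has a drift which the drifts of the chains approach in norm. Drifts are taken at
the empty prefix, where the drift of a chain is the exact average of the drifts of its units.
-/

namespace Vale.Agent.P079.Sq

open Filter Topology Set

noncomputable section

universe u

variable {X : Type u} [NormedAddCommGroup X] [NormedSpace ℝ X] [CompleteSpace X] (F : Frame X)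

/-- The drift of a block of weight `w` at a state of weight `a`. -/
def dr (a w : ℝ) (U R : Ultrafilter Word) : X :=
  w⁻¹ • ((a + w) • F.mean (cat U R) - a • F.mean R)

/-- The states built from `R0` up to the time `a`. -/
def Reach (a0 : ℝ) (R0 : Ultrafilter Word) (a : ℝ) (R : Ultrafilter Word) : Prop :=
  ∃ V, Blk (a - a0) V ∧ R = cat V R0

lemma Reach.blk {a0 a : ℝ} {R0 R : Ultrafilter Word} (h0 : Blk a0 R0) (h : Reach a0 R0 a R) :
    Blk a R := by
  obtain ⟨V, hV, rfl⟩ := h
  simpa using hV.cat h0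

lemma Reach.cat {a0 a w : ℝ} {R0 R U : Ultrafilter Word} (h : Reach a0 R0 a R) (hU : Blk w U) :
    Reach a0 R0 (a + w) (cat U R) := by
  obtain ⟨V, hV, rfl⟩ := h
  refine ⟨Sq.cat U V, ?_, (cat_assoc _ _ _).symm⟩
  rw [show a + w - a0 = w + (a - a0) by ring]
  exact hU.cat hV

lemma mean_cat (U R : Ultrafilter Word) :
    F.mean (cat U R) = F.avg U fun u => F.meanAt u R := by
  simp only [F.mean_eq, F.meanAt_cat, List.nil_append]

/-- An outer word moves the mean by its share and its error. -/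
lemma norm_meanAt_sub_mean_le {a : ℝ} {R : Ultrafilter Word} (hR : Blk a R) (ha : 0 < a)
    {u : Word} (hu : Pos u) :
    ‖F.meanAt u R - F.mean R‖ ≤ F.D * (wt u / (wt u + a) + err u) := by
  refine F.norm_avg_sub_avg_same_le (fun _ => leaf_mem _ _) (fun _ => leaf_mem _ _) fun ε hε => ?_
  have hlim : Tendsto (fun v => err v + idx u * rr v) (R : Filter Word) (𝓝 0) := by
    simpa using hR.err.add (hR.rr.const_mul (idx u))
  filter_upwards [hR.word, hlim.eventually (eventually_le_nhds
    (show (0 : ℝ) < ε / (F.D + 1) by have := F.D_nonneg; positivity))] with v hv hv'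
  refine (leaf_prefix_le F.toSetting (pos_append.mpr ⟨hu, hv.1⟩) (hv.2 ▸ ha)).trans ?_
  rw [hv.2]
  have h1 := err_append u v
  have h2 : err v + idx u * rr v ≤ ε / (F.D + 1) := hv'
  have h3 : F.D * (ε / (F.D + 1)) ≤ ε := by
    rw [mul_div_assoc', div_le_iff₀ (by linarith [F.D_nonneg])]
    nlinarith [F.D_nonneg]
  nlinarith [mul_le_mul_of_nonneg_left (show err (u ++ v) ≤ err u + ε / (F.D + 1) by linarith)
    F.D_nonneg]

lemma norm_dr_le {B : ℝ} (hB : ∀ y ∈ F.K, ‖y‖ ≤ B) {a w : ℝ} (ha : 0 < a) (hw : 0 < w)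
    {U R : Ultrafilter Word} (hU : Blk w U) (hR : Blk a R) : ‖dr F a w U R‖ ≤ F.D + B := by
  have h1 : ‖F.mean (cat U R) - F.mean R‖ ≤ F.D * (w / (w + a)) := by
    rw [mean_cat]
    refine F.norm_avg_sub_le (fun _ => F.meanAt_mem _ _) _ fun ε hε => ?_
    filter_upwards [hU.word, hU.err.eventually (eventually_le_nhds
      (show (0 : ℝ) < ε / (F.D + 1) by have := F.D_nonneg; positivity))] with u hu hu'
    refine (norm_meanAt_sub_mean_le F hR ha hu.1).trans ?_
    rw [hu.2, mul_add]
    refine add_le_add le_rfl ((mul_le_mul_of_nonneg_left hu' F.D_nonneg).trans ?_)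
    rw [mul_div_assoc', div_le_iff₀ (by linarith [F.D_nonneg])]
    nlinarith [F.D_nonneg]
  have h2 : ‖F.mean (cat U R)‖ ≤ B := hB _ (F.avg_mem _ _)
  rw [dr, show (a + w) • F.mean (cat U R) - a • F.mean R =
    a • (F.mean (cat U R) - F.mean R) + w • F.mean (cat U R) by
      rw [add_smul, smul_sub]; abel, norm_smul_of_nonneg (inv_nonneg.mpr hw.le),
    inv_mul_le_iff₀ hw]
  refine (norm_add_le _ _).trans ?_
  rw [norm_smul_of_nonneg ha.le, norm_smul_of_nonneg hw.le, mul_add]
  refine add_le_add ((mul_le_mul_of_nonneg_left h1 ha.le).trans ?_)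
    (mul_le_mul_of_nonneg_left h2 hw.le)
  rw [← mul_assoc, mul_div_assoc', div_le_iff₀ (by linarith)]
  nlinarith [mul_nonneg (mul_nonneg F.D_nonneg hw.le) hw.le]

lemma tendsto_dr {ι : Type*} (l : Ultrafilter ι) (f : ι → Ultrafilter Word) (a w : ℝ)
    (R : Ultrafilter Word) (φ : StrongDual ℝ X) :
    Tendsto (fun i => φ (dr F a w (f i) R)) (l : Filter ι) (𝓝 (φ (dr F a w (l.bind f) R))) := by
  have e : F.mean (cat (l.bind f) R) = F.avg l fun i => F.mean (cat (f i) R) := by
    simp only [mean_cat]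
    exact F.avg_bind fun u => F.meanAt_mem _ _
  simp only [dr, map_smul, map_sub, e]
  exact (((F.tendsto_avg (Eventually.of_forall fun i => F.avg_mem _ _) φ).const_smul _).sub_const
    _).const_smul _

lemma mem_of_dr {ι : Type*} {l : Ultrafilter ι} {f : ι → Ultrafilter Word} {a w : ℝ}
    {R : Ultrafilter Word} {C : Set X} (hC : IsClosed C) (hC' : Convex ℝ C)
    (h : ∀ᶠ i in (l : Filter ι), dr F a w (f i) R ∈ C) : dr F a w (l.bind f) R ∈ C :=
  Asym.weakLimit_mem (l := l.map fun i => dr F a w (f i) R)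
    (fun φ => by
      rw [Ultrafilter.coe_map, tendsto_map'_iff]
      exact tendsto_dr F l f a w R φ) hC hC' h

lemma pile_congr {us us' : ℕ → Ultrafilter Word} :
    ∀ {n : ℕ}, (∀ i < n, us i = us' i) → pile us n = pile us' n
  | 0, _ => rfl
  | n + 1, h => by
    rw [pile, pile, h n n.lt_succ_self, pile_congr fun i hi => h i (Nat.lt_succ_of_lt hi)]

lemma dr_succ {a w : ℝ} (hw : 0 < w) {us : ℕ → Ultrafilter Word} (n : ℕ) (R : Ultrafilter Word) :
    dr F a ((n + 1 : ℕ) * w) (pile us (n + 1)) R =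
      (1 / (n + 1 : ℝ)) • dr F (a + n * w) w (us n) (cat (pile us n) R) +
        ((n : ℝ) / (n + 1 : ℝ)) • dr F a (n * w) (pile us n) R := by
  rcases Nat.eq_zero_or_pos n with hn | hn
  · subst hn
    simp [pile, cat_emp, emp_cat]
  · have hn' : (0 : ℝ) < n := Nat.cast_pos.mpr hn
    have e : cat (pile us (n + 1)) R = cat (us n) (cat (pile us n) R) := cat_assoc _ _ _
    simp only [dr, e, smul_sub, smul_smul]
    have c1 : ((n + 1 : ℕ) * w)⁻¹ * (a + (n + 1 : ℕ) * w) =
        1 / (n + 1 : ℝ) * (w⁻¹ * (a + n * w + w)) := by push_cast; field_simp; ring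
    have c2 : 1 / (n + 1 : ℝ) * (w⁻¹ * (a + n * w)) =
        (n : ℝ) / (n + 1 : ℝ) * ((n * w)⁻¹ * (a + n * w)) := by field_simp
    have c3 : ((n + 1 : ℕ) * w)⁻¹ * a = (n : ℝ) / (n + 1 : ℝ) * ((n * w)⁻¹ * a) := by
      push_cast; field_simp
    rw [c1, c3, c2]
    abel

/-- The convex sets which hold the drift of some block at every state. -/
def Adm (a0 b0 : ℝ) (R0 : Ultrafilter Word) (S C : Set X) : Prop :=
  IsClosed C ∧ Convex ℝ C ∧ C ⊆ S ∧ ∀ a w R, a0 ≤ a → 0 < w → a + w ≤ b0 → Reach a0 R0 a R →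
    ∃ U, Blk w U ∧ dr F a w U R ∈ C

/-- A chain of units with drifts in an admissible set has its drift there. -/
lemma exists_pile {a0 b0 : ℝ} {R0 : Ultrafilter Word} {S C : Set X} (hC : Adm F a0 b0 R0 S C)
    {a w : ℝ} {R : Ultrafilter Word} (ha : a0 ≤ a) (hw : 0 < w) (hR : Reach a0 R0 a R) :
    ∀ n : ℕ, a + n * w ≤ b0 → ∃ us : ℕ → Ultrafilter Word, (∀ i < n, Blk w (us i)) ∧
      (0 < n → dr F a (n * w) (pile us n) R ∈ C) ∧ Reach a0 R0 (a + n * w) (cat (pile us n) R)
  | 0, _ => ⟨fun _ => emp, fun i hi => absurd hi (Nat.not_lt_zero i), fun h => absurd h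
      (lt_irrefl 0), by simpa [pile, emp_cat] using hR⟩
  | n + 1, hn => by
    rw [Nat.cast_succ, add_one_mul, ← add_assoc] at hn
    obtain ⟨us, h1, h2, h3⟩ := exists_pile hC ha hw hR n (by linarith)
    have ha' : a0 ≤ a + n * w := le_add_of_le_of_nonneg ha (by positivity)
    obtain ⟨U, hU, hUC⟩ := hC.2.2.2 _ w _ ha' hw hn h3
    refine ⟨Function.update us n U, fun i hi => ?_, fun _ => ?_, ?_⟩
    · rcases eq_or_ne i n with rfl | hne
      · rwa [Function.update_self]
      · rw [Function.update_of_ne hne]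
        exact h1 i (lt_of_le_of_ne (Nat.le_of_lt_succ hi) hne)
    all_goals
      have he : pile (Function.update us n U) n = pile us n :=
        pile_congr fun i hi => Function.update_of_ne (ne_of_lt hi) _ _
    · rw [dr_succ F hw, he, Function.update_self]
      rcases Nat.eq_zero_or_pos n with h0 | h0
      · subst h0
        simpa using hUC
      · exact hC.2.1 hUC (h2 h0) (by positivity) (by positivity) (by field_simp; ring)
    · rw [show pile (Function.update us n U) (n + 1) = cat U (pile us n) by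
        rw [pile, he, Function.update_self], cat_assoc, Nat.cast_succ, add_one_mul, ← add_assoc]
      exact h3.cat hU

/-- A window: every interval has a selection over long chains whose drifts converge up to `η`. -/
theorem exists_window (hrefl : Function.Surjective (NormedSpace.inclusionInDoubleDual ℝ X))
    (hKb : Bornology.IsBounded F.K) (hKs : TopologicalSpace.IsSeparable F.K)
    {a0 b0 : ℝ} (ha0 : 0 < a0) (hab : a0 < b0) {R0 : Ultrafilter Word} (h0 : Blk a0 R0)
    {η : ℝ} (hη : 0 < η) :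
    ∃ (a w : ℝ) (R : Ultrafilter Word) (us : ℕ → ℕ → Ultrafilter Word),
      a0 ≤ a ∧ 0 < w ∧ a + w ≤ b0 ∧ Reach a0 R0 a R ∧
      (∀ m, ∀ i < m + 1, Blk (w / (m + 1 : ℕ)) (us m i)) ∧
      ∀ᶠ m in (uf : Filter ℕ), ‖dr F a w (pile (us m) (m + 1)) R -
        dr F a w (uf.bind fun m => pile (us m) (m + 1)) R‖ ≤ η := by
  obtain ⟨B, hB⟩ := hKb.exists_norm_le
  set S : Set X := Metric.closedBall 0 (F.D + B) ∩ closure (Submodule.span ℝ F.K : Set X) with hS
  have hSc : IsClosed S := Metric.isClosed_closedBall.inter isClosed_closure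
  have hSx : Convex ℝ S :=
    (convex_closedBall 0 (F.D + B)).inter (Submodule.convex _).closure
  have hmem : ∀ {a w U R}, 0 < a → 0 < w → Blk w U → Blk a R → dr F a w U R ∈ S := by
    intro a w U R ha hw hU hR
    refine ⟨mem_closedBall_zero_iff.mpr (norm_dr_le F hB ha hw hU hR), subset_closure ?_⟩
    exact Submodule.smul_mem _ _ (Submodule.sub_mem _
      (Submodule.smul_mem _ _ (Submodule.subset_span (F.avg_mem _ _)))
      (Submodule.smul_mem _ _ (Submodule.subset_span (F.avg_mem _ _))))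
  have hSadm : Adm F a0 b0 R0 S S := ⟨hSc, hSx, subset_rfl, fun a w R ha hw _ hR =>
    ⟨atom w, blk_atom hw.le, hmem (lt_of_lt_of_le ha0 ha) hw (blk_atom hw.le) (hR.blk h0)⟩⟩
  -- a minimal admissible set
  obtain ⟨C, -, hmin⟩ := zorn_superset_nonempty {C | Adm F a0 b0 R0 S C} (fun c hc hchain hcne => by
    refine ⟨⋂₀ c, ⟨isClosed_sInter fun s hs => (hc hs).1, convex_sInter fun s hs => (hc hs).2.1,
      ?_, fun a w R ha hw hb hR => ?_⟩, fun s hs => Set.sInter_subset_of_mem hs⟩
    · obtain ⟨s, hs⟩ := hcne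
      exact (Set.sInter_subset_of_mem hs).trans (hc hs).2.2.1
    · have : Nonempty c := hcne.to_subtype
      choose U hU hUC using fun s : c => (hc s.2).2.2.2 a w R ha hw hb hR
      have hdir : Directed (· ≥ ·) fun s : c => 𝓟 {s' : c | (s' : Set X) ⊆ s} := fun s t => by
        rcases hchain.total s.2 t.2 with h | h
        · exact ⟨s, le_rfl, principal_mono.mpr fun x hx => Set.Subset.trans hx h⟩
        · exact ⟨t, principal_mono.mpr fun x hx => Set.Subset.trans hx h, le_rfl⟩
      have hbot : NeBot (⨅ s : c, 𝓟 {s' : c | (s' : Set X) ⊆ s}) :=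
        iInf_neBot_of_directed' hdir fun s => principal_neBot_iff.mpr ⟨s, Set.Subset.refl (s : Set X)⟩
      set l := Ultrafilter.of (⨅ s : c, 𝓟 {s' : c | (s' : Set X) ⊆ s})
      refine ⟨l.bind U, Blk.bind (Eventually.of_forall hU), fun s hs =>
        mem_of_dr F (hc hs).1 (hc hs).2.1 ?_⟩
      filter_upwards [Ultrafilter.of_le _ (mem_iInf_of_mem (⟨s, hs⟩ : c) (mem_principal_self _))]
        with t ht using ht (hUC t)) S hSadm
  have hC := hmin.prop
  obtain ⟨hCc, hCx, hCS, hCU⟩ := hC
  -- its generators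
  set gen : Set X := {x | ∃ (a w : ℝ) (R : Ultrafilter Word) (us : ℕ → ℕ → Ultrafilter Word),
    a0 ≤ a ∧ 0 < w ∧ a + w ≤ b0 ∧ Reach a0 R0 a R ∧
    (∀ m, ∀ i < m + 1, Blk (w / (m + 1 : ℕ)) (us m i)) ∧
    (∀ m, dr F a w (pile (us m) (m + 1)) R ∈ C) ∧
    x = dr F a w (uf.bind fun m => pile (us m) (m + 1)) R} with hgen
  have hgenC : closedConvexHull ℝ gen ⊆ C := by
    refine closedConvexHull_min ?_ hCx hCc
    rintro x ⟨a, w, R, us, -, -, -, -, -, hm, rfl⟩
    exact mem_of_dr F hCc hCx (Eventually.of_forall hm)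
  have hgen' : Adm F a0 b0 R0 S (closedConvexHull ℝ gen) := by
    refine ⟨isClosed_closedConvexHull, convex_closedConvexHull, hgenC.trans hCS,
      fun a w R ha hw hb hR => ?_⟩
    have key : ∀ m : ℕ, ∃ us : ℕ → Ultrafilter Word, (∀ i < m + 1, Blk (w / (m + 1 : ℕ)) (us i)) ∧
        dr F a w (pile us (m + 1)) R ∈ C := fun m => by
      have e : ((m + 1 : ℕ) : ℝ) * (w / (m + 1 : ℕ)) = w :=
        mul_div_cancel₀ _ (Nat.cast_ne_zero.mpr m.succ_ne_zero)
      obtain ⟨us, h1, h2, -⟩ := exists_pile F hmin.prop ha (w := w / (m + 1 : ℕ)) (by positivity)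
        hR (m + 1) (by rw [e]; exact hb)
      exact ⟨us, h1, by simpa only [e] using h2 m.succ_pos⟩
    choose us hus hdr using key
    refine ⟨uf.bind fun m => pile (us m) (m + 1), Blk.bind (Eventually.of_forall fun m => ?_),
      subset_closedConvexHull ⟨a, w, R, us, ha, hw, hb, hR, hus, hdr, rfl⟩⟩
    have := blk_pile (us := us m) (m + 1) (hus m)
    rwa [mul_div_cancel₀ _ (Nat.cast_ne_zero.mpr m.succ_ne_zero)] at this
  have hCgen : closedConvexHull ℝ gen = C := hmin.eq_of_le hgen' hgenC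
  -- a small slice of it
  have hne : C.Nonempty := by
    obtain ⟨U, -, hU⟩ := hCU a0 (b0 - a0) R0 le_rfl (by linarith) (by linarith)
      ⟨emp, by simpa using blk_emp, (emp_cat R0).symm⟩
    exact ⟨_, hU⟩
  obtain ⟨f, c, ⟨x, hxC, hx⟩, hsmall⟩ := exists_slice hrefl hne hCc hCx
    (Metric.isBounded_closedBall.subset (hCS.trans inter_subset_left))
    ((hKs.span.closure).mono (hCS.trans inter_subset_right)) hη
  obtain ⟨g, ⟨a, w, R, us, ha, hw, hb, hR, hus, hdr, rfl⟩, hg⟩ : ∃ g ∈ gen, c < f g := by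
    by_contra hno
    push Not at hno
    have : closedConvexHull ℝ gen ⊆ {y | f y ≤ c} := closedConvexHull_min hno
      (convex_halfSpace_le f.toLinearMap.isLinear c) (isClosed_le f.continuous continuous_const)
    exact absurd (this (hCgen ▸ hxC)) (not_le.mpr hx)
  refine ⟨a, w, R, us, ha, hw, hb, hR, hus, ?_⟩
  filter_upwards [(tendsto_dr F uf (fun m => pile (us m) (m + 1)) a w R f).eventually
    (eventually_gt_nhds hg)] with m hm
  exact hsmall _ (hdr m) _ (mem_of_dr F hCc hCx (Eventually.of_forall hdr)) hm hg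

end

end Vale.Agent.P079.Sq
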